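import Mathlib

/-!
# Descent on the norm of the support, and averaging of kernel elements
-/

namespace Vale.Agent.P291.H125

noncomputable section

/-- If every element of `P` whose support is not contained in `{0}` can be changed so that one
exponent of maximal norm disappears and no new exponents of at least this norm appear,
then `P` contains an element with support in `{0}`. -/
theorem descend {K G : Type*} [Semiring K] [Zero G] (nrm : G → ℕ)
    (h0 : ∀ g, nrm g = 0 ↔ g = 0)
    (P : AddMonoidAlgebra K G → Prop)
    (step : ∀ z, P z → ∀ g ∈ z.coeff.support, g ≠ 0 →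
      (∀ g' ∈ z.coeff.support, nrm g' ≤ nrm g) →
      ∃ z', P z' ∧ z'.coeff g = 0 ∧ ∀ g', nrm g ≤ nrm g' → z.coeff g' = 0 → z'.coeff g' = 0) :
    ∀ z, P z → ∃ z', P z' ∧ ∀ g, g ≠ 0 → z'.coeff g = 0 := by
  classical
  have main : ∀ N : ℕ, ∀ z, P z → (∀ g ∈ z.coeff.support, nrm g ≤ N) →
      ∃ z', P z' ∧ ∀ g, g ≠ 0 → z'.coeff g = 0 := by
    intro N
    induction N with
    | zero =>
      intro z hz hN
      refine ⟨z, hz, fun g hg => ?_⟩
      by_contra hne
      exact hg ((h0 g).1 (Nat.le_zero.1 (hN g (Finsupp.mem_support_iff.2 hne))))
    | succ N ihN =>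
      have inner : ∀ c : ℕ, ∀ z, P z → (∀ g ∈ z.coeff.support, nrm g ≤ N + 1) →
          (z.coeff.support.filter (fun g => nrm g = N + 1)).card = c →
          ∃ z', P z' ∧ ∀ g, g ≠ 0 → z'.coeff g = 0 := by
        intro c
        induction c using Nat.strong_induction_on with
        | _ c ihc =>
          intro z hz hN hc
          by_cases hc0 : c = 0
          · apply ihN z hz
            intro g hg
            have h1 := hN g hg
            have h2 : nrm g ≠ N + 1 := by
              intro h3
              have : g ∈ z.coeff.support.filter (fun g => nrm g = N + 1) :=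
                Finset.mem_filter.2 ⟨hg, h3⟩
              rw [Finset.card_eq_zero.1 (hc.trans hc0)] at this
              exact absurd this (Finset.notMem_empty _)
            omega
          · have hpos : 0 < (z.coeff.support.filter (fun g => nrm g = N + 1)).card := by omega
            obtain ⟨g, hg⟩ := Finset.card_pos.1 hpos
            obtain ⟨hg1, hg2⟩ := Finset.mem_filter.1 hg
            have hgne : g ≠ 0 := by
              intro h; rw [(h0 g).2 h] at hg2; omega
            obtain ⟨z', hz', hz'g, hz'0⟩ := step z hz g hg1 hgne
              (fun g' hg' => by rw [hg2]; exact hN g' hg')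
            have hsub : z'.coeff.support.filter (fun g => nrm g = N + 1) ⊂
                z.coeff.support.filter (fun g => nrm g = N + 1) := by
              refine ⟨?_, ?_⟩
              · intro g' hg'
                obtain ⟨h1, h2⟩ := Finset.mem_filter.1 hg'
                refine Finset.mem_filter.2 ⟨?_, h2⟩
                rw [Finsupp.mem_support_iff] at h1 ⊢
                intro h3
                exact h1 (hz'0 g' (by omega) h3)
              · intro hss
                have := hss hg
                have h1 := (Finset.mem_filter.1 this).1
                exact (Finsupp.mem_support_iff.1 h1) hz'g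
            have hcard := Finset.card_lt_card hsub
            refine ihc _ (by omega) z' hz' ?_ rfl
            intro g' hg'
            by_contra hlt
            rw [Finsupp.mem_support_iff] at hg'
            apply hg'
            apply hz'0 g' (by omega)
            by_contra h3
            have := hN g' (Finsupp.mem_support_iff.2 h3)
            omega
      intro z hz hN
      exact inner _ z hz hN rfl
  intro z hz
  exact main (z.coeff.support.sup nrm) z hz (fun g hg => Finset.le_sup hg)

/-- An invariant polynomial which vanishes after specialisation of the coefficients is a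
combination of invariant polynomials with coefficients in the kernel of the specialisation. -/
theorem ker_avg {B L₁ L₂ : Type*} [Finite B] [CommRing L₁] [CommRing L₂] [Algebra ℚ L₁]
    (s : L₁ →+* L₂) (H : Subgroup (Equiv.Perm B)) (h : MvPolynomial B L₁)
    (hinv : ∀ w ∈ H, MvPolynomial.rename w h = h) (hs : MvPolynomial.map s h = 0) :
    ∃ (a : (B →₀ ℕ) → L₁) (p : (B →₀ ℕ) → MvPolynomial B L₁),
      (∀ m, s (a m) = 0) ∧ (∀ m, ∀ w ∈ H, MvPolynomial.rename w (p m) = p m) ∧
      h = ∑ m ∈ h.support, MvPolynomial.C (a m) * p m := by
  classical
  have := Fintype.ofFinite B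
  have : Fintype H := Fintype.ofFinite H
  let c : L₁ := algebraMap ℚ L₁ ((Fintype.card H : ℚ)⁻¹)
  have hc : c * (Fintype.card H : L₁) = 1 := by
    have : (Fintype.card H : L₁) = algebraMap ℚ L₁ (Fintype.card H : ℚ) := by simp
    rw [this, ← map_mul, inv_mul_cancel₀, map_one]
    exact_mod_cast Fintype.card_ne_zero
  let p : (B →₀ ℕ) → MvPolynomial B L₁ := fun m =>
    MvPolynomial.C c * ∑ w : H, MvPolynomial.rename (w : Equiv.Perm B) (MvPolynomial.monomial m 1)
  refine ⟨fun m => h.coeff m, p, ?_, ?_, ?_⟩
  · intro m
    have := congrArg (MvPolynomial.coeff m) hs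
    simpa [MvPolynomial.coeff_map] using this
  · intro m w hw
    simp only [p, map_mul, map_sum, MvPolynomial.rename_C]
    congr 1
    refine Fintype.sum_equiv (Equiv.mulLeft (⟨w, hw⟩ : H)) _ _ ?_
    intro u
    rw [MvPolynomial.rename_rename]
    rfl
  · have h1 : h = MvPolynomial.C c * ∑ w : H, MvPolynomial.rename (w : Equiv.Perm B) h := by
      rw [Finset.sum_congr rfl (fun w _ => hinv w.1 w.2), Finset.sum_const, Finset.card_univ,
        nsmul_eq_mul, ← mul_assoc]
      have : MvPolynomial.C c * ((Fintype.card H : ℕ) : MvPolynomial B L₁) = 1 := by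
        rw [← MvPolynomial.C_1, ← hc, map_mul]; simp
      rw [this, one_mul]
    have h2 : ∀ w : H, MvPolynomial.rename (w : Equiv.Perm B) h = ∑ m ∈ h.support,
        MvPolynomial.C (h.coeff m) *
          MvPolynomial.rename (w : Equiv.Perm B) (MvPolynomial.monomial m 1) := by
      intro w
      conv_lhs => rw [h.as_sum, map_sum]
      refine Finset.sum_congr rfl (fun m _ => ?_)
      rw [← MvPolynomial.rename_C (w : Equiv.Perm B), ← map_mul, MvPolynomial.C_mul_monomial,
        mul_one]
    calc h = MvPolynomial.C c * ∑ w : H, MvPolynomial.rename (w : Equiv.Perm B) h := h1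
      _ = MvPolynomial.C c * ∑ w : H, ∑ m ∈ h.support, MvPolynomial.C (h.coeff m) *
          MvPolynomial.rename (w : Equiv.Perm B) (MvPolynomial.monomial m 1) := by
          rw [Finset.sum_congr rfl (fun w _ => h2 w)]
      _ = _ := by
          rw [Finset.sum_comm, Finset.mul_sum]
          refine Finset.sum_congr rfl (fun m _ => ?_)
          simp only [p]
          rw [← Finset.mul_sum]; ring

end

end Vale.Agent.P291.H125
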