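import Vale.Agent.P291.Sp1Blk
import Vale.Agent.P291.H125.Descend

/-!
# Lifting along a surjective specialisation of the flavour parameters
-/

open MvPolynomial

set_option linter.unusedSectionVars false

namespace Vale.Agent.P291.H125

variable {I E B Λ Λ' : Type*} [Fintype E] [DecidableEq I] [Fintype B] [DecidableEq B]
  [CommRing Λ] [IsDomain Λ] [CommRing Λ'] [IsDomain Λ']
variable {Q : QD I E B Λ} {Q' : QD I E B Λ'} {φ : Λ' →+* Λ}

theorem vact_vact (σ τ : Equiv.Perm B) (V : Finset (Option B)) :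
    vact σ (vact τ V) = vact (σ * τ) V := by
  ext o
  simp only [vact, Finset.mem_map_equiv]
  cases o <;> rfl

theorem vact_empty (σ : Equiv.Perm B) : vact σ (∅ : Finset (Option B)) = ∅ := by
  simp [vact]

theorem vact_univ (σ : Equiv.Perm B) : vact σ (Finset.univ : Finset (Option B)) = Finset.univ := by
  simp [vact]

theorem exists_Eqv_lift [Algebra ℚ Λ'] (h : Rel Q Q' φ) (hφ : Function.Surjective φ)
    {F : Finset (Option B) → SS B Λ} (hF : F ∈ Q.Eqv) :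
    ∃ F' ∈ Q'.Eqv, (∀ V, MvPolynomial.map φ (F' V) = F V) ∧
      (F ∅ = 0 → F' ∅ = 0) ∧ (F Finset.univ = 0 → F' Finset.univ = 0) := by
  classical
  have : Fintype Q'.W := Fintype.ofFinite _
  let c : Λ' := algebraMap ℚ Λ' ((Fintype.card Q'.W : ℚ)⁻¹)
  have hc : c * (Fintype.card Q'.W : Λ') = 1 := by
    have : (Fintype.card Q'.W : Λ') = algebraMap ℚ Λ' (Fintype.card Q'.W : ℚ) := by simp
    rw [this, ← map_mul, inv_mul_cancel₀, map_one]
    exact_mod_cast Fintype.card_ne_zero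
  have hsurj := MvPolynomial.map_surjective (σ := B) φ hφ
  choose g hg using hsurj
  let F0 : Finset (Option B) → SS B Λ' := fun V => if F V = 0 then 0 else g (F V)
  have hF0 : ∀ V, MvPolynomial.map φ (F0 V) = F V := by
    intro V
    by_cases h0 : F V = 0
    · simp [F0, h0]
    · simp only [F0, if_neg h0]; exact hg _
  let F' : Finset (Option B) → SS B Λ' := fun V =>
    C c * ∑ σ : Q'.W, rename ((σ : Equiv.Perm B)⁻¹ : Equiv.Perm B) (F0 (vact (σ : Equiv.Perm B) V))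
  refine ⟨F', ?_, ?_, ?_, ?_⟩
  · intro τ hτ V
    show C c * ∑ σ : Q'.W, _ = rename τ (C c * ∑ σ : Q'.W, _)
    rw [map_mul, rename_C, map_sum]
    congr 1
    refine Fintype.sum_equiv (Equiv.mulRight (⟨τ, hτ⟩ : Q'.W)) _ _ ?_
    intro σ
    rw [rename_rename, vact_vact]
    have e1 : ((Equiv.mulRight (⟨τ, hτ⟩ : Q'.W)) σ : Equiv.Perm B) = (σ : Equiv.Perm B) * τ := rfl
    rw [e1]
    congr 1
    congr 1
    funext b
    simp [mul_inv_rev]
  · intro V
    show MvPolynomial.map φ (C c * ∑ σ : Q'.W, _) = F V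
    rw [map_mul, map_C, map_sum]
    have h1 : ∀ σ : Q'.W, MvPolynomial.map φ
        (rename ((σ : Equiv.Perm B)⁻¹ : Equiv.Perm B) (F0 (vact (σ : Equiv.Perm B) V))) = F V := by
      intro σ
      rw [MvPolynomial.map_rename, hF0, hF σ.1 (by rw [h.W_eq]; exact σ.2) V, rename_rename]
      have : ((σ.1⁻¹ : Equiv.Perm B) : B → B) ∘ (σ.1 : B → B) = id := by
        funext b; simp
      rw [this, rename_id_apply]
    rw [Finset.sum_congr rfl (fun σ _ => h1 σ), Finset.sum_const, Finset.card_univ, nsmul_eq_mul,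
      ← mul_assoc]
    have h2 : C (φ c) * ((Fintype.card Q'.W : ℕ) : SS B Λ) = 1 := by
      have : ((Fintype.card Q'.W : ℕ) : SS B Λ) = C (φ (Fintype.card Q'.W : Λ')) := by simp
      rw [this, ← map_mul, ← map_mul, hc, map_one, map_one]
    rw [h2, one_mul]
  · intro h0
    have : ∀ σ : Q'.W, F0 (vact (σ : Equiv.Perm B) ∅) = 0 := by
      intro σ; rw [vact_empty]; simp [F0, h0]
    show C c * ∑ σ : Q'.W, _ = 0
    simp [this]
  · intro h0
    have : ∀ σ : Q'.W, F0 (vact (σ : Equiv.Perm B) Finset.univ) = 0 := by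
      intro σ; rw [vact_univ]; simp [F0, h0]
    show C c * ∑ σ : Q'.W, _ = 0
    simp [this]

theorem A_sub_lift [Algebra ℚ Λ'] (h : Rel Q Q' φ) (hφ : Function.Surjective φ)
    {a : AA B Λ} (ha : a ∈ Q.A) : ∃ a' ∈ Q'.A, (a', a) ∈ SpA Q' φ := by
  refine Algebra.adjoin_induction (p := fun x _ => ∃ a' ∈ Q'.A, (a', x) ∈ SpA Q' φ)
    ?_ ?_ ?_ ?_ ha
  · rintro x ⟨F, hF, rfl⟩
    obtain ⟨F', hF', h1, _, _⟩ := exists_Eqv_lift h hφ hF
    refine ⟨_, Algebra.subset_adjoin ⟨F', hF', rfl⟩, ?_⟩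
    have h2 := h.M_mem F'
    have h3 : (fun V => MvPolynomial.map φ (F' V)) = F := funext h1
    rw [h3] at h2; exact h2
  · intro r
    obtain ⟨r', rfl⟩ := hφ r
    exact ⟨_, Q'.A.algebraMap_mem r', algebraMap_mem_SpA Q' φ r'⟩
  · rintro x y _ _ ⟨a, ha, hxa⟩ ⟨b, hb, hyb⟩
    exact ⟨a + b, Q'.A.add_mem ha hb, SpA_add hxa hyb⟩
  · rintro x y _ _ ⟨a, ha, hxa⟩ ⟨b, hb, hyb⟩
    exact ⟨a * b, Q'.A.mul_mem ha hb, SpA_mul hxa hyb⟩

theorem II_sub_lift [Algebra ℚ Λ'] (h : Rel Q Q' φ) (hφ : Function.Surjective φ)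
    {z : AA B Λ} (hz : z ∈ Q.II) : ∃ z' ∈ Q'.II, (z', z) ∈ SpA Q' φ := by
  refine Submodule.span_induction (p := fun x _ => ∃ a ∈ Q'.II, (a, x) ∈ SpA Q' φ)
    ?_ ?_ ?_ ?_ hz
  · rintro x ⟨F, hF, h0, h1, rfl⟩
    obtain ⟨F', hF', h2, h3, h4⟩ := exists_Eqv_lift h hφ hF
    refine ⟨_, Submodule.subset_span ⟨F', hF', h3 h0, h4 h1, rfl⟩, ?_⟩
    have h5 := h.M_mem F'
    have h6 : (fun V => MvPolynomial.map φ (F' V)) = F := funext h2
    rw [h6] at h5; exact h5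
  · exact ⟨0, Submodule.zero_mem _, SpA_zero⟩
  · rintro x y _ _ ⟨a, ha, hxa⟩ ⟨b, hb, hyb⟩
    exact ⟨a + b, Submodule.add_mem _ ha hb, SpA_add hxa hyb⟩
  · rintro c x _ ⟨a, ha, hxa⟩
    obtain ⟨d, hd, hcd⟩ := A_sub_lift h hφ c.2
    refine ⟨d * a, ?_, SpA_mul hcd hxa⟩
    exact Submodule.smul_mem Q'.II (⟨d, hd⟩ : Q'.A) ha

end Vale.Agent.P291.H125
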