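import Mathlib

/-!
# The graph of the specialisation map

`sp : S₁ → S₂` is a ring homomorphism, `D : S₁`.  `Gr sp D` is the set of all pairs
`(a / D ^ n, sp a / (sp D) ^ n)` in `K₁ × K₂`; it is a subring.  `GrA sp D G` is the set of all
pairs of elements of `K₁[G]`, `K₂[G]` whose coefficients are in `Gr sp D`; it is a subring.
-/

namespace Vale.Agent.P291.H125

noncomputable section

variable {S₁ S₂ K₁ K₂ : Type*} [CommRing S₁] [CommRing S₂] [Field K₁] [Field K₂]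
  [Algebra S₁ K₁] [Algebra S₂ K₂]

/-- graph of the specialisation `S₁[1/D] → S₂[1/D]`. -/
def Gr (K₁ K₂ : Type*) [Field K₁] [Field K₂] [Algebra S₁ K₁] [Algebra S₂ K₂]
    (sp : S₁ →+* S₂) (D : S₁) : Subring (K₁ × K₂) where
  carrier := {y | ∃ (n : ℕ) (a : S₁), algebraMap S₁ K₁ D ^ n * y.1 = algebraMap S₁ K₁ a ∧
    algebraMap S₂ K₂ (sp D) ^ n * y.2 = algebraMap S₂ K₂ (sp a)}
  zero_mem' := ⟨0, 0, by simp, by simp⟩
  one_mem' := ⟨0, 1, by simp, by simp⟩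
  add_mem' := by
    rintro x y ⟨n, a, h1, h2⟩ ⟨m, b, h3, h4⟩
    refine ⟨n + m, D ^ m * a + D ^ n * b, ?_, ?_⟩
    · rw [Prod.fst_add, map_add, map_mul, map_mul, ← h1, ← h3, map_pow, map_pow]; ring
    · rw [Prod.snd_add, map_add, map_add, map_mul, map_mul, map_mul, map_mul, ← h2, ← h4,
        map_pow, map_pow, map_pow, map_pow]; ring
  mul_mem' := by
    rintro x y ⟨n, a, h1, h2⟩ ⟨m, b, h3, h4⟩
    refine ⟨n + m, a * b, ?_, ?_⟩
    · rw [Prod.fst_mul, map_mul, ← h1, ← h3]; ring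
    · rw [Prod.snd_mul, map_mul, map_mul, ← h2, ← h4]; ring
  neg_mem' := by
    rintro x ⟨n, a, h1, h2⟩
    refine ⟨n, -a, ?_, ?_⟩
    · rw [Prod.fst_neg, map_neg, ← h1]; ring
    · rw [Prod.snd_neg, map_neg, map_neg, ← h2]; ring

theorem mem_Gr {sp : S₁ →+* S₂} {D : S₁} {y : K₁ × K₂} :
    y ∈ Gr K₁ K₂ sp D ↔ ∃ (n : ℕ) (a : S₁), algebraMap S₁ K₁ D ^ n * y.1 = algebraMap S₁ K₁ a ∧
      algebraMap S₂ K₂ (sp D) ^ n * y.2 = algebraMap S₂ K₂ (sp a) := Iff.rfl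

theorem Gr_algebraMap (sp : S₁ →+* S₂) (D : S₁) (a : S₁) :
    (algebraMap S₁ K₁ a, algebraMap S₂ K₂ (sp a)) ∈ Gr K₁ K₂ sp D :=
  ⟨0, a, by simp, by simp⟩

/-- if `a ∣ D ^ n` then `1/a` specialises to `1/(sp a)` -/
theorem Gr_inv {sp : S₁ →+* S₂} {D : S₁} {a : S₁} {n : ℕ} (h : a ∣ D ^ n)
    (h1 : algebraMap S₁ K₁ a ≠ 0) (h2 : algebraMap S₂ K₂ (sp a) ≠ 0) :
    ((algebraMap S₁ K₁ a)⁻¹, (algebraMap S₂ K₂ (sp a))⁻¹) ∈ Gr K₁ K₂ sp D := by
  obtain ⟨b, hb⟩ := h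
  refine ⟨n, b, ?_, ?_⟩
  · show algebraMap S₁ K₁ D ^ n * (algebraMap S₁ K₁ a)⁻¹ = _
    rw [← map_pow, hb, map_mul]
    field_simp
  · show algebraMap S₂ K₂ (sp D) ^ n * (algebraMap S₂ K₂ (sp a))⁻¹ = _
    rw [← map_pow, ← map_pow, hb, map_mul, map_mul]
    field_simp

/-- the graph is the graph of a map -/
theorem Gr_fun {sp : S₁ →+* S₂} {D : S₁} (hi₁ : Function.Injective (algebraMap S₁ K₁))
    (hD : algebraMap S₂ K₂ (sp D) ≠ 0) {y : K₂} (h : ((0 : K₁), y) ∈ Gr K₁ K₂ sp D) : y = 0 := by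
  obtain ⟨n, a, h1, h2⟩ := h
  simp only [mul_zero] at h1
  have ha : a = 0 := hi₁ (by rw [← h1, map_zero])
  subst ha
  simp only [map_zero] at h2
  exact (mul_eq_zero.1 h2).resolve_left (pow_ne_zero _ hD)

theorem Gr_fun' {sp : S₁ →+* S₂} {D : S₁} (hi₁ : Function.Injective (algebraMap S₁ K₁))
    (hD : algebraMap S₂ K₂ (sp D) ≠ 0) {x : K₁} {y y' : K₂} (h : (x, y) ∈ Gr K₁ K₂ sp D)
    (h' : (x, y') ∈ Gr K₁ K₂ sp D) : y = y' := by
  have := (Gr K₁ K₂ sp D).sub_mem h h'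
  have h3 : ((0 : K₁), y - y') ∈ Gr K₁ K₂ sp D := by simpa using this
  exact sub_eq_zero.1 (Gr_fun hi₁ hD h3)

/-- pairs of elements of the group algebras which are related coefficientwise -/
def GrA (K₁ K₂ G : Type*) [Field K₁] [Field K₂] [Algebra S₁ K₁] [Algebra S₂ K₂] [AddMonoid G]
    (sp : S₁ →+* S₂) (D : S₁) : Subring (AddMonoidAlgebra K₁ G × AddMonoidAlgebra K₂ G) :=
  (RingHom.prod
    (AddMonoidAlgebra.mapRingHom G ((RingHom.fst K₁ K₂).comp (Gr K₁ K₂ sp D).subtype))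
    (AddMonoidAlgebra.mapRingHom G ((RingHom.snd K₁ K₂).comp (Gr K₁ K₂ sp D).subtype))).range

variable {G : Type*} [AddMonoid G]

theorem mem_GrA {sp : S₁ →+* S₂} {D : S₁} {z : AddMonoidAlgebra K₁ G × AddMonoidAlgebra K₂ G} :
    z ∈ GrA K₁ K₂ G sp D ↔ ∀ g, (z.1.coeff g, z.2.coeff g) ∈ Gr K₁ K₂ sp D := by
  constructor
  · rintro ⟨w, rfl⟩ g
    simp only [RingHom.prod_apply, AddMonoidAlgebra.coeff_mapRingHom]
    exact (w.coeff g).2
  · intro h
    classical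
    refine ⟨∑ g ∈ z.1.coeff.support ∪ z.2.coeff.support,
      AddMonoidAlgebra.single g ⟨(z.1.coeff g, z.2.coeff g), h g⟩, ?_⟩
    have key : ∀ (f : (Gr K₁ K₂ sp D) →+* K₁) (f' : (Gr K₁ K₂ sp D) →+* K₂),
        (∀ y, f y = y.1.1) → (∀ y, f' y = y.1.2) →
        (AddMonoidAlgebra.mapRingHom G f (∑ g ∈ z.1.coeff.support ∪ z.2.coeff.support,
          AddMonoidAlgebra.single g (⟨(z.1.coeff g, z.2.coeff g), h g⟩ : Gr K₁ K₂ sp D)) = z.1) ∧
        (AddMonoidAlgebra.mapRingHom G f' (∑ g ∈ z.1.coeff.support ∪ z.2.coeff.support,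
          AddMonoidAlgebra.single g (⟨(z.1.coeff g, z.2.coeff g), h g⟩ : Gr K₁ K₂ sp D)) = z.2) := by
      intro f f' hf hf'
      constructor
      · ext g
        rw [AddMonoidAlgebra.coeff_mapRingHom, AddMonoidAlgebra.coeff_sum,
          Finsupp.finsetSum_apply, map_sum]
        by_cases hg : g ∈ z.1.coeff.support ∪ z.2.coeff.support
        · rw [Finset.sum_eq_single g]
          · simp [hf]
          · intro b _ hb
            simp [hb]
          · intro h'; exact absurd hg h'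
        · rw [Finset.sum_eq_zero]
          · have : g ∉ z.1.coeff.support := fun h' => hg (Finset.mem_union_left _ h')
            exact (Finsupp.notMem_support_iff.1 this).symm
          · intro b hb
            have : b ≠ g := by rintro rfl; exact hg hb
            simp [this]
      · ext g
        rw [AddMonoidAlgebra.coeff_mapRingHom, AddMonoidAlgebra.coeff_sum,
          Finsupp.finsetSum_apply, map_sum]
        by_cases hg : g ∈ z.1.coeff.support ∪ z.2.coeff.support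
        · rw [Finset.sum_eq_single g]
          · simp [hf']
          · intro b _ hb
            simp [hb]
          · intro h'; exact absurd hg h'
        · rw [Finset.sum_eq_zero]
          · have : g ∉ z.2.coeff.support := fun h' => hg (Finset.mem_union_right _ h')
            exact (Finsupp.notMem_support_iff.1 this).symm
          · intro b hb
            have : b ≠ g := by rintro rfl; exact hg hb
            simp [this]
    obtain ⟨k1, k2⟩ := key ((RingHom.fst K₁ K₂).comp (Gr K₁ K₂ sp D).subtype)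
      ((RingHom.snd K₁ K₂).comp (Gr K₁ K₂ sp D).subtype) (fun _ => rfl) (fun _ => rfl)
    rw [RingHom.prod_apply]
    exact Prod.ext k1 k2

theorem GrA_mul {sp : S₁ →+* S₂} {D : S₁} {a c : AddMonoidAlgebra K₁ G}
    {b d : AddMonoidAlgebra K₂ G} (h : (a, b) ∈ GrA K₁ K₂ G sp D) (h' : (c, d) ∈ GrA K₁ K₂ G sp D) :
    (a * c, b * d) ∈ GrA K₁ K₂ G sp D := by
  rw [← Prod.mk_mul_mk]
  exact Subring.mul_mem _ h h'

theorem GrA_add {sp : S₁ →+* S₂} {D : S₁} {a c : AddMonoidAlgebra K₁ G}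
    {b d : AddMonoidAlgebra K₂ G} (h : (a, b) ∈ GrA K₁ K₂ G sp D) (h' : (c, d) ∈ GrA K₁ K₂ G sp D) :
    (a + c, b + d) ∈ GrA K₁ K₂ G sp D := by
  rw [← Prod.mk_add_mk]
  exact Subring.add_mem _ h h'

theorem GrA_sub {sp : S₁ →+* S₂} {D : S₁} {a c : AddMonoidAlgebra K₁ G}
    {b d : AddMonoidAlgebra K₂ G} (h : (a, b) ∈ GrA K₁ K₂ G sp D) (h' : (c, d) ∈ GrA K₁ K₂ G sp D) :
    (a - c, b - d) ∈ GrA K₁ K₂ G sp D := by
  rw [← Prod.mk_sub_mk]
  exact Subring.sub_mem _ h h'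

theorem GrA_zero {sp : S₁ →+* S₂} {D : S₁} :
    ((0 : AddMonoidAlgebra K₁ G), (0 : AddMonoidAlgebra K₂ G)) ∈ GrA K₁ K₂ G sp D := by
  rw [← Prod.zero_eq_mk]
  exact Subring.zero_mem _

theorem GrA_single {sp : S₁ →+* S₂} {D : S₁} (g : G) {y : K₁ × K₂} (h : y ∈ Gr K₁ K₂ sp D) :
    (AddMonoidAlgebra.single g y.1, AddMonoidAlgebra.single g y.2) ∈ GrA K₁ K₂ G sp D := by
  refine ⟨AddMonoidAlgebra.single g ⟨y, h⟩, ?_⟩
  simp [RingHom.prod_apply]

end

end Vale.Agent.P291.H125
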