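import Vale.Agent.P291.QBlk
import Vale.Agent.P291.C2Blk
import Vale.Agent.P291.C1Blk

/-!
# HP1: translations of the Chern roots and regularity
-/

open MvPolynomial

set_option linter.unusedSectionVars false

namespace Vale.Agent.P291.HP

noncomputable section

variable {B Λ : Type*} [CommRing Λ]

/-- translation `x_b ↦ x_b + c_b` -/
def trA (c : B → Λ) : SS B Λ →ₐ[Λ] SS B Λ := aeval (fun b => X b + C (c b))

theorem trA_X (c : B → Λ) (b : B) : trA c (X b : SS B Λ) = X b + C (c b) := by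
  simp [trA]

theorem trA_C (c : B → Λ) (a : Λ) : trA c (C a : SS B Λ) = C a := by
  rw [← MvPolynomial.algebraMap_eq]; exact AlgHom.commutes _ _

theorem trA_trA (c c' : B → Λ) (f : SS B Λ) : trA c (trA c' f) = trA (c + c') f := by
  have h : (trA c).comp (trA c') = trA (c + c') := by
    apply MvPolynomial.algHom_ext
    intro b
    rw [AlgHom.comp_apply, trA_X, map_add, trA_X, trA_C, trA_X, Pi.add_apply, map_add]
    ring
  exact congrArg (fun g => g f) h

theorem trA_zero (f : SS B Λ) : trA (0 : B → Λ) f = f := by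
  have h : trA (0 : B → Λ) = AlgHom.id Λ (SS B Λ) := by
    apply MvPolynomial.algHom_ext
    intro b
    rw [trA_X]; simp
  rw [h]; rfl

theorem trA_neg_trA (c : B → Λ) (f : SS B Λ) : trA (-c) (trA c f) = f := by
  rw [trA_trA, neg_add_cancel, trA_zero]

theorem trA_trA_neg (c : B → Λ) (f : SS B Λ) : trA c (trA (-c) f) = f := by
  rw [trA_trA, add_neg_cancel, trA_zero]

/-- translation as an automorphism -/
def trE (c : B → Λ) : SS B Λ ≃ₐ[Λ] SS B Λ :=
  AlgEquiv.ofAlgHom (trA c) (trA (-c))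
    (AlgHom.ext fun f => trA_trA_neg c f) (AlgHom.ext fun f => trA_neg_trA c f)

theorem trE_apply (c : B → Λ) (f : SS B Λ) : trE c f = trA c f := rfl

variable [IsDomain Λ]

/-- translation of rational functions -/
def trK (c : B → Λ) : KK B Λ ≃+* KK B Λ :=
  IsFractionRing.ringEquivOfRingEquiv (A := SS B Λ) (B := SS B Λ) (K := KK B Λ) (L := KK B Λ)
    (trE c).toRingEquiv

theorem trK_toK (c : B → Λ) (f : SS B Λ) : trK c (toK f) = toK (trA c f) := by
  unfold trK toK
  rw [IsFractionRing.ringEquivOfRingEquiv_algebraMap]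
  rfl

theorem exists_frac (y : KK B Λ) : ∃ p q : SS B Λ, q ≠ 0 ∧ y = toK p / toK q := by
  obtain ⟨p, q, hq, h⟩ := IsFractionRing.div_surjective (A := SS B Λ) y
  exact ⟨p, q, nonZeroDivisors.ne_zero hq, h.symm⟩

theorem trA_dvd_iff (c : B → Λ) (f g : SS B Λ) : trA c f ∣ trA c g ↔ f ∣ g := by
  constructor
  · intro h
    have := map_dvd (trA (-c)) h
    rwa [trA_neg_trA, trA_neg_trA] at this
  · exact fun h => map_dvd (trA c) h

theorem RegAt.trK {c : B → Λ} {δ : SS B Λ} {y : KK B Λ} (h : RegAt δ y) :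
    RegAt (trA c δ) (HP.trK c y) := by
  obtain ⟨p, q, hq, h⟩ := h
  refine ⟨trA c p, trA c q, fun hd => hq ((trA_dvd_iff c δ q).1 hd), ?_⟩
  rw [← trK_toK, ← trK_toK, ← h, map_mul]

theorem prime_trA {c : B → Λ} {δ : SS B Λ} (h : Prime δ) : Prime (trA c δ) := by
  rw [← trE_apply]
  exact (MulEquiv.prime_iff (trE c).toMulEquiv).2 h

theorem regAt_unit {δ ε : SS B Λ} (h : δ ∣ ε) {y : KK B Λ} (hy : RegAt δ y) : RegAt ε y := by
  obtain ⟨p, q, hq, h'⟩ := hy
  exact ⟨p, q, fun hd => hq (h.trans hd), h'⟩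

variable [DecidableEq B]

/-- the linear form `x_b - x_a + c` is prime -/
theorem prime_lin {a b : B} (hab : a ≠ b) (c : Λ) : Prime (X b - X a + C c : SS B Λ) := by
  have h : (X b - X a + C c : SS B Λ) = trA (fun b' => if b' = b then c else 0) (X b - X a) := by
    rw [map_sub, trA_X, trA_X, if_pos rfl, if_neg hab]
    simp; ring
  rw [h]
  exact prime_trA (delta_prime (Ne.symm hab))

/-- `x_b - x_a + c`, `c ≠ 0`, does not divide `x_r - x_s` -/
theorem not_lin_dvd {a b r s : B} (hab : a ≠ b) {c : Λ} (hc : c ≠ 0) (hrs : r ≠ s) :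
    ¬ (X b - X a + C c : SS B Λ) ∣ X r - X s := by
  intro hd
  -- substitution `x_b ↦ x_a - c`
  let φ : SS B Λ →ₐ[Λ] SS B Λ := aeval (fun b' => if b' = b then X a - C c else X b')
  have hφb : φ (X b) = X a - C c := by simp [φ]
  have hφ : ∀ b', b' ≠ b → φ (X b') = X b' := by intro b' h; simp [φ, h]
  have hφC : φ (C c) = C c := by rw [← MvPolynomial.algebraMap_eq]; exact AlgHom.commutes _ _
  have h0 : φ (X r - X s) = 0 := by
    obtain ⟨g, hg⟩ := hd
    rw [hg, map_mul, map_add, map_sub, hφb, hφ a hab, hφC]; ring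
  rw [map_sub] at h0
  by_cases h1 : r = b
  · subst h1
    rw [hφb, hφ s (Ne.symm hrs)] at h0
    have := congrArg (MvPolynomial.eval (fun _ => (0 : Λ))) h0
    simp at this
    exact hc this
  · by_cases h2 : s = b
    · subst h2
      rw [hφb, hφ r hrs] at h0
      have := congrArg (MvPolynomial.eval (fun _ => (0 : Λ))) h0
      simp at this
      exact hc this
    · rw [hφ r h1, hφ s h2] at h0
      exact hrs (X_injective (sub_eq_zero.1 h0))

/-- non-divisibility through a partial derivative -/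
theorem not_dvd_of_pderiv {δ f : SS B Λ} (hδ : Prime δ) {b : B} (h0 : pderiv b δ = 0)
    (h1 : pderiv b f = 1 ∨ pderiv b f = -1) : ¬ δ ∣ f := by
  rintro ⟨g, rfl⟩
  rw [Derivation.leibniz, h0, smul_zero, add_zero, smul_eq_mul] at h1
  have : δ ∣ 1 := by
    rcases h1 with h1 | h1
    · exact ⟨_, h1.symm⟩
    · exact ⟨-pderiv b g, by rw [mul_neg, h1, neg_neg]⟩
  exact hδ.not_dvd_one this

end

end Vale.Agent.P291.HP
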