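import Vale.Agent.P291.H125.HP9
import Vale.Agent.P291.Sp2Blk

/-!
# HP10: descent to a constant
-/

open MvPolynomial

set_option linter.unusedSectionVars false

namespace Vale.Agent.P291.HP

noncomputable section

open H906 (cv full Nt)
open H125 (Rel)

variable {I E B Λ Λ' : Type*} [Fintype E] [DecidableEq I] [Fintype B] [DecidableEq B]
  [CommRing Λ] [IsDomain Λ] [CommRing Λ'] [IsDomain Λ']

section one

variable (Q : QD I E B Λ) (h : Λ) (ν : I → ℤ)

theorem DP_cases {A : (Option I → ℕ) → (Option I → ℕ) → Prop} {τ : VV B → SS B Λ}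
    (hτ : τ ∈ DP Q A) {mu : B → ℤ} (hmu : (NT Q h τ).coeff mu ≠ 0) :
    (∀ b, mu b = -1 ∨ mu b = 0 ∨ mu b = 1) ∧ ∀ i, Q.chg i mu = 0 := by
  rw [NT_coeff] at hmu
  obtain ⟨V, hV, hV'⟩ := Finset.exists_ne_zero_of_sum_ne_zero hmu
  have h1 := (Finset.mem_filter.1 hV).2
  have h2 : τ V ≠ 0 := fun h0 => hV' (by rw [h0, cc_zero])
  have h3 := (DP_supp Q hτ h2).2
  refine ⟨fun b => ?_, fun i => ?_⟩
  · have := Cp.sum_apply Q h3 b
    rw [h1] at this
    rw [this]
    by_cases c1 : some b ∈ V 0 <;> by_cases c2 : some b ∈ V 1 <;> simp [c1, c2]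
  · rw [← h1]; exact Cp_chg Q h3 i

theorem NT_sub (τ τ' : VV B → SS B Λ) : NT Q h (τ - τ') = NT Q h τ - NT Q h τ' := by
  have h1 : NT Q h (τ - τ') + NT Q h τ' = NT Q h τ := by
    rw [← NT_add, sub_add_cancel]
  exact eq_sub_of_add_eq h1

end one

variable {Q : QD I E B Λ} {Q' : QD I E B Λ'} {φ : Λ' →+* Λ}

theorem map_HN (hR : Rel Q Q' φ) {h : Λ'} (hh : φ h = 0) (lam : B → ℤ) :
    map φ (HN Q' h lam) = HN Q 0 lam := by
  unfold HN
  rw [map_prod, hR.Wt_eq]
  refine Finset.prod_congr rfl fun p _ => ?_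
  rw [map_mul, map_pow, map_pow, map_add, hR.map_xi, map_C, hh]

/-- existence of a constant lift -/
theorem exists_const [Algebra ℚ Λ] [Algebra ℚ Λ'] (hR : Rel Q Q' φ) (hφ : Function.Surjective φ)
    {h : Λ'} (h0 : h ≠ 0) (hh : φ h = 0) (hker : ∀ x, φ x = 0 → h ∣ x)
    (hQ : Q.NonzeroLoops) (ν : I → ℤ)
    (hν : ∀ U : Finset B, U.Nonempty → ∑ b ∈ U, ν (Q.vx b) ≠ 0) {f : SS B Λ} (hf : f ∈ Q.JC) :
    ∃ τ ∈ DP Q' (Al Q' ν), (NT Q' h τ, QD.cst f) ∈ GA B φ ∧
      ∀ mu, mu ≠ 0 → (NT Q' h τ).coeff mu = 0 := by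
  classical
  have hν' : ∀ U : Finset B, U.Nonempty → ∑ b ∈ U, ν (Q'.vx b) ≠ 0 := by
    rw [← hR.vx_eq]; exact hν
  obtain ⟨τ0, hτ0, hτ0'⟩ := exists_start hR hφ hh hQ ν hν hf
  obtain ⟨z, ⟨τ, hτ, hz, hz'⟩, hzs⟩ := H125.descend (K := KK B Λ')
    (fun lam : B → ℤ => (nrm lam).toNat) H125.nrm_eq_zero
    (fun z => ∃ τ ∈ DP Q' (Al Q' ν), z = NT Q' h τ ∧ (z, QD.cst f) ∈ GA B φ) (by
      rintro z ⟨τ, hτ, hz, hz'⟩ lam hlam hne hmax
      have hlam' : z.coeff lam ≠ 0 := Finsupp.mem_support_iff.1 hlam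
      have hmax' : ∀ mu, z.coeff mu ≠ 0 → nrm mu ≤ nrm lam := by
        intro mu hmu
        have := hmax mu (Finsupp.mem_support_iff.2 hmu)
        have h1 := H125.nrm_nonneg mu
        have h2 := H125.nrm_nonneg lam
        omega
      subst hz
      obtain ⟨p, hp1, hp2⟩ := LC_pair Q' h h0 hτ hmax'
      -- the specialisation of `p` vanishes
      have hp0 : MvPolynomial.map φ p = 0 := by
        have h1 := hz' lam
        have h2 : (QD.cst f : AA B Λ).coeff lam = 0 := by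
          unfold QD.cst
          rw [AddMonoidAlgebra.coeff_single, Finsupp.single_eq_of_ne hne]
        simp only at h1
        rw [h2] at h1
        have h3 := (Gq B φ).mul_mem h1 (Gq_toK (φ := φ) (HD Q' h lam))
        rw [Prod.mk_mul_mk, hp1, zero_mul] at h3
        have h4 := Gq_fun' h3 (Gq_toK (φ := φ) (HN Q' h lam * p))
        rw [map_mul, map_HN hR hh] at h4
        have h5 : HN Q 0 lam * map φ p = 0 := C1.toK_inj (h4.symm.trans toK_zero.symm)
        exact (mul_eq_zero.1 h5).resolve_left (HN_ne_zero Q 0 lam)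
      obtain ⟨p1, hp1'⟩ : C h ∣ p := by
        rw [MvPolynomial.C_dvd_iff_dvd_coeff]
        intro m
        apply hker
        have := congrArg (MvPolynomial.coeff m) hp0
        simpa [MvPolynomial.coeff_map] using this
      have hCh : (C h : SS B Λ') ≠ 0 := by
        intro h1
        exact h0 (by simpa using h1)
      have hp1inv : Q'.InvL lam p1 := by
        intro σ hσ hl
        have h1 := hp2 σ hσ hl
        rw [hp1', map_mul, rename_C] at h1
        exact mul_left_cancel₀ hCh h1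
      obtain ⟨c1, c2⟩ := DP_cases Q' h hτ hlam'
      obtain ⟨τ1, hτ1, ht1, ht2⟩ := exists_top Q' h ν hν' c1 c2 hne hp1inv
      have hcoeff : ∀ mu, (NT Q' h (τ - h • τ1)).coeff mu =
          (NT Q' h τ).coeff mu - toK (C h) * (NT Q' h τ1).coeff mu := by
        intro mu
        rw [NT_sub, AddMonoidAlgebra.coeff_sub, Finsupp.sub_apply, NT_smul]
      have hlam0 : (NT Q' h (τ - h • τ1)).coeff lam = 0 := by
        rw [hcoeff]
        apply mul_right_cancel₀ (toK_ne_zero (HD_ne_zero Q' h lam))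
        rw [sub_mul, mul_assoc, ht1, hp1, hp1', zero_mul, ← toK_mul]
        rw [sub_eq_zero]
        congr 1
        ring
      have hmem : τ - h • τ1 ∈ DP Q' (Al Q' ν) := sub_mem hτ (Submodule.smul_mem _ h hτ1)
      refine ⟨NT Q' h (τ - h • τ1), ⟨τ - h • τ1, hmem, rfl, ?_⟩, hlam0, ?_⟩
      · intro mu
        have h1 := hz' mu
        have h2 := (Gq B φ).mul_mem (Gq_toK (φ := φ) (C h : SS B Λ'))
          (GA_NT hR hh τ1 mu)
        rw [Prod.mk_mul_mk, map_C, hh, C_0, toK_zero, zero_mul] at h2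
        have h3 := (Gq B φ).sub_mem h1 h2
        rw [Prod.mk_sub_mk, sub_zero] at h3
        simp only at h3 ⊢
        rw [hcoeff]
        exact h3
      · intro mu hmu hzmu
        by_contra hne'
        have h1 : (NT Q' h τ1).coeff mu ≠ 0 := by
          intro h2
          apply hne'
          rw [hcoeff, hzmu, h2, mul_zero, sub_zero]
        obtain ⟨h3, h4⟩ := ht2 mu h1
        have h5 : nrm mu = nrm lam := by
          have := H125.nrm_nonneg mu
          have := H125.nrm_nonneg lam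
          omega
        obtain ⟨σ, hσ, rfl⟩ := h4 h5
        have h6 := NT_inv Q' h (DP_equ Q' hmem) hσ lam
        rw [hlam0, map_zero] at h6
        exact hne' h6) (NT Q' h τ0) ⟨τ0, hτ0, rfl, hτ0'⟩
  subst hz
  exact ⟨τ, hτ, hz', hzs⟩

end

end Vale.Agent.P291.HP
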