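import Vale.Agent.P291.H125.HP10

/-!
# HP11: `J_C` is contained in the Hausel-Proudfoot ideal
-/

open MvPolynomial

set_option linter.unusedSectionVars false

namespace Vale.Agent.P291.HP

noncomputable section

open H906 (cv full Nt)
open H125 (Rel)

variable {I E B Λ Λ' : Type*} [Fintype E] [DecidableEq I] [Fintype B] [DecidableEq B]
  [CommRing Λ] [IsDomain Λ] [CommRing Λ'] [IsDomain Λ']

section one

variable (Q : QD I E B Λ) (h : Λ) (ν : I → ℤ)

/-- `e(h) = ∏ (x_r - x_s)(h - (x_r - x_s))` -/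
def EH : SS B Λ :=
  ∏ p ∈ Q.Prs.filter (fun p => p.1 ≠ p.2),
    ((X p.1 - X p.2 : SS B Λ) * (C h - (X p.1 - X p.2)))

/-- product of the `ξ` with `⟨ξ, lam⟩ < 0` and of the `h - ξ` with `⟨ξ, lam⟩ > 0` (with
multiplicities) -/
def hcut (lam : B → ℤ) : SS B Λ :=
  ∏ p ∈ Q.Wt, (Q.xi p ^ (lam p.2.1 - ext lam p.2.2).toNat *
    (C h - Q.xi p) ^ (ext lam p.2.2 - lam p.2.1).toNat)

/-- the ideal of the hypertoric variety, equivariant for the scaling of the cotangent fibres -/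
def ITh : Ideal (SS B Λ) :=
  Ideal.span {g | ∃ V : Finset (Option B), ∑ b, ν (Q.vx b) * lamV V b < 0 ∧
    g = hcut Q h (lamV V)}

theorem EH_eq : EH Q h = DD Q h 0 := by
  unfold EH DD
  have hf : Q.Prs.filter (fun p => p.1 ≠ p.2 ∧ (0 : B → ℤ) p.1 = 0 ∧ (0 : B → ℤ) p.2 = 0) =
      Q.Prs.filter (fun p => p.1 ≠ p.2) := by
    apply Finset.filter_congr
    intro p _
    simp
  rw [hf, Finset.prod_mul_distrib, Finset.prod_mul_distrib]
  congr 1
  refine Finset.prod_equiv (Equiv.prodComm B B) ?_ ?_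
  · intro p
    simp only [QD.Prs, Finset.mem_filter, Finset.mem_univ, true_and, Equiv.prodComm_apply,
      Prod.fst_swap, Prod.snd_swap]
    constructor
    · rintro ⟨h1, h2⟩; exact ⟨h1.symm, Ne.symm h2⟩
    · rintro ⟨h1, h2⟩; exact ⟨h1.symm, Ne.symm h2⟩
  · intro p _
    simp only [Equiv.prodComm_apply, Prod.fst_swap, Prod.snd_swap, map_neg]
    ring

theorem HN_zero : HN Q h 0 = 1 := by
  unfold HN
  refine Finset.prod_eq_one fun p _ => ?_
  rw [ext_zero]
  simp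

theorem HD_zero : HD Q h 0 = 1 := by
  unfold HD
  refine Finset.prod_eq_one fun p _ => ?_
  simp

theorem hcut_dvd_MN {V : VV B} (hC : Cp Q V) (h0 : lamV (V 0) + lamV (V 1) = 0) :
    hcut Q h (lamV (V 0)) ∣ MN Q h V := by
  unfold hcut MN
  refine Finset.prod_dvd_prod_of_dvd _ _ fun p _ => ?_
  -- `V 1` is the complement of `V 0`
  have hn : none ∈ V 1 ↔ none ∉ V 0 := by
    have := Cp.none_sum Q hC
    by_cases h1 : none ∈ V 0 <;> by_cases h2 : none ∈ V 1 <;> simp [h1, h2] at this ⊢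
  have hs : ∀ b, some b ∈ V 1 ↔ some b ∉ V 0 := by
    intro b
    have := Cp.sum_apply Q hC b
    rw [h0] at this
    by_cases h1 : some b ∈ V 0 <;> by_cases h2 : some b ∈ V 1 <;> simp [h1, h2] at this ⊢
  have ho : ∀ o, o ∈ V 1 ↔ o ∉ V 0 := by
    intro o
    rcases o with _ | b
    · exact hn
    · exact hs b
  have he : lamV (V 0) p.2.1 - ext (lamV (V 0)) p.2.2 =
      (if some p.2.1 ∈ V 0 then 1 else 0) - (if p.2.2 ∈ V 0 then 1 else 0) := by
    rw [ext_lamV]; simp only [lamV, ind]; ring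
  have he' : ext (lamV (V 0)) p.2.2 - lamV (V 0) p.2.1 =
      (if p.2.2 ∈ V 0 then 1 else 0) - (if some p.2.1 ∈ V 0 then 1 else 0) := by
    rw [ext_lamV]; simp only [lamV, ind]; ring
  rw [he, he']
  simp only [ho]
  by_cases h1 : some p.2.1 ∈ V 0 <;> by_cases h2 : p.2.2 ∈ V 0
  · simp [h1, h2]
  · simp [h1, h2]
  · simp only [h1, h2, if_true, if_false]
    refine ⟨-1, ?_⟩
    simp
  · simp [h1, h2]

/-- the constant coefficient of a sum of allowed pairs -/
theorem coeff_zero_mem {τ : VV B → SS B Λ} (hτ : τ ∈ DP Q (Al Q ν)) :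
    ∃ g ∈ ITh Q h ν, toK (EH Q h) * (NT Q h τ).coeff 0 = toK g := by
  classical
  rw [NT_coeff, Finset.mul_sum]
  have key : ∀ V ∈ (Finset.univ.filter fun V : VV B => lamV (V 0) + lamV (V 1) = 0),
      ∃ g ∈ ITh Q h ν, toK (EH Q h) * cc Q h V (τ V) = toK g := by
    intro V hV
    have hV' := (Finset.mem_filter.1 hV).2
    by_cases h0 : τ V = 0
    · refine ⟨0, zero_mem _, ?_⟩
      rw [h0, cc_zero, mul_zero]
      exact toK_zero.symm
    obtain ⟨⟨_, hneg⟩, hC⟩ := DP_supp Q hτ h0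
    rw [nuc_dm] at hneg
    obtain ⟨c, hc⟩ := MD_dvd Q h hC
    rw [hV', ← EH_eq] at hc
    obtain ⟨d, hd⟩ := hcut_dvd_MN Q h hC hV'
    have h1 := cc_formula Q h V (τ V)
    rw [hV', HD_zero, HN_zero, one_mul, one_mul] at h1
    refine ⟨(c * d * trA (hv h (lamV (V 0))) (τ V)) * hcut Q h (lamV (V 0)),
      Ideal.mul_mem_left _ _ (Ideal.subset_span ⟨V 0, hneg, rfl⟩), ?_⟩
    calc toK (EH Q h) * cc Q h V (τ V) = toK c * (cc Q h V (τ V) * toK (MD Q h V)) := by
          rw [hc, toK_mul]; ring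
      _ = toK ((c * d * trA (hv h (lamV (V 0))) (τ V)) * hcut Q h (lamV (V 0))) := by
          rw [h1, ← toK_mul, hd]
          congr 1
          ring
  choose! g hg hg' using key
  refine ⟨∑ V ∈ (Finset.univ.filter fun V : VV B => lamV (V 0) + lamV (V 1) = 0), g V,
    sum_mem hg, ?_⟩
  rw [Finset.sum_congr rfl hg']
  exact (map_sum _ _ _).symm

end one

variable {Q : QD I E B Λ} {Q' : QD I E B Λ'} {φ : Λ' →+* Λ}

/-- **`J_C` is contained in the Hausel-Proudfoot ideal.** Every element of `J_C` lifts to an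
invariant polynomial `r` over `Λ'` with `e(h) r` in the ideal of the hypertoric variety. -/
theorem HP_lift [Algebra ℚ Λ] [Algebra ℚ Λ'] (hR : Rel Q Q' φ) (hφ : Function.Surjective φ)
    {h : Λ'} (h0 : h ≠ 0) (hh : φ h = 0) (hker : ∀ x, φ x = 0 → h ∣ x)
    (hQ : Q.NonzeroLoops) (ν : I → ℤ)
    (hν : ∀ U : Finset B, U.Nonempty → ∑ b ∈ U, ν (Q.vx b) ≠ 0) {f : SS B Λ} (hf : f ∈ Q.JC) :
    ∃ r ∈ Q'.R, map φ r = f ∧ EH Q' h * r ∈ ITh Q' h ν := by
  obtain ⟨τ, hτ, hG, hsup⟩ := exists_const hR hφ h0 hh hker hQ ν hν hf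
  obtain ⟨r, hr1, hr2⟩ := LC_pair Q' h h0 hτ (lam := 0) (by
    intro mu hmu
    by_cases hl : mu = 0
    · rw [hl]
    · exact absurd (hsup mu hl) hmu)
  rw [HD_zero, HN_zero, toK_one, mul_one, one_mul] at hr1
  refine ⟨r, fun σ hσ => hr2 σ hσ rfl, ?_, ?_⟩
  · have h1 := hG 0
    simp only at h1
    rw [hr1] at h1
    have h2 : (QD.cst f : AA B Λ).coeff 0 = toK f := by
      unfold QD.cst
      rw [AddMonoidAlgebra.coeff_single, Finsupp.single_eq_same]
    rw [h2] at h1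
    exact (C1.toK_inj (Gq_fun' h1 (Gq_toK (φ := φ) r))).symm
  · obtain ⟨g, hg, hg'⟩ := coeff_zero_mem Q' h ν hτ
    rw [hr1, ← toK_mul] at hg'
    rw [C1.toK_inj hg']
    exact hg

end

end Vale.Agent.P291.HP
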