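import Vale.Agent.P291.H125.HP1
import Vale.Agent.P291.XBlk

/-!
# HP2: products of two generators in the skew (deformed) product, coefficients and equivariance
-/

open MvPolynomial

set_option linter.unusedSectionVars false

namespace Vale.Agent.P291.HP

noncomputable section

variable {I E B Λ : Type*} [Fintype E] [DecidableEq I] [Fintype B] [DecidableEq B] [CommRing Λ]
  [IsDomain Λ]

/-- translation vector of a cocharacter: `x ↦ x - h lam` -/
def hv (h : Λ) (lam : B → ℤ) : B → Λ := fun b => -(h * (lam b : Λ))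

theorem rename_trA (σ : Equiv.Perm B) (c : B → Λ) (f : SS B Λ) :
    rename σ (trA c f) = trA (fun b => c (σ⁻¹ b)) (rename σ f) := by
  have h : (rename σ).comp (trA c) = (trA (fun b => c (σ⁻¹ b))).comp (rename σ) := by
    apply MvPolynomial.algHom_ext
    intro b
    rw [AlgHom.comp_apply, AlgHom.comp_apply, trA_X, map_add, rename_X, rename_C, trA_X]
    simp
  exact congrArg (fun g => g f) h

theorem act_trK (σ : Equiv.Perm B) (c : B → Λ) (y : KK B Λ) :
    act σ (trK c y) = trK (fun b => c (σ⁻¹ b)) (act σ y) := by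
  obtain ⟨p, q, _, rfl⟩ := exists_frac y
  rw [map_div₀, map_div₀, map_div₀, map_div₀, trK_toK, trK_toK, act_toK, act_toK, act_toK,
    act_toK, trK_toK, trK_toK, rename_trA, rename_trA]

theorem hv_lact (h : Λ) (σ : Equiv.Perm B) (lam : B → ℤ) :
    hv h (lact σ lam) = fun b => hv h lam (σ⁻¹ b) := rfl

/-- index type of the pairs -/
abbrev VV (B : Type*) := Fin 2 → Finset (Option B)

variable (Q : QD I E B Λ) (h : Λ)

/-- coefficient of the pair `V` with numerator `f` -/
def cc (V : VV B) (f : SS B Λ) : KK B Λ :=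
  Q.e (lamV (V 0)) * trK (hv h (lamV (V 0))) (toK f * Q.e (lamV (V 1)))

/-- sum over pairs of subsets -/
def NT (τ : VV B → SS B Λ) : AA B Λ :=
  ∑ V : VV B, AddMonoidAlgebra.single (lamV (V 0) + lamV (V 1)) (cc Q h V (τ V))

theorem cc_add (V : VV B) (f g : SS B Λ) : cc Q h V (f + g) = cc Q h V f + cc Q h V g := by
  unfold cc
  have : toK (f + g) = toK f + toK g := map_add _ _ _
  rw [this, add_mul, map_add, mul_add]

theorem cc_zero (V : VV B) : cc Q h V 0 = 0 := by
  have : (toK (0 : SS B Λ) : KK B Λ) = 0 := map_zero _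
  unfold cc
  rw [this, zero_mul, map_zero, mul_zero]

theorem cc_C_mul (V : VV B) (c : Λ) (f : SS B Λ) :
    cc Q h V (C c * f) = toK (C c) * cc Q h V f := by
  unfold cc
  have : toK (C c * f) = toK (C c) * toK f := map_mul _ _ _
  rw [this, mul_assoc, map_mul, trK_toK, trA_C]
  ring

theorem NT_coeff (τ : VV B → SS B Λ) (mu : B → ℤ) :
    (NT Q h τ).coeff mu = ∑ V : VV B with lamV (V 0) + lamV (V 1) = mu, cc Q h V (τ V) := by
  unfold NT
  rw [AddMonoidAlgebra.coeff_sum, Finsupp.finsetSum_apply, Finset.sum_filter]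
  refine Finset.sum_congr rfl fun V _ => ?_
  rw [AddMonoidAlgebra.coeff_single, Finsupp.single_apply]

theorem NT_add (τ τ' : VV B → SS B Λ) : NT Q h (τ + τ') = NT Q h τ + NT Q h τ' := by
  unfold NT
  rw [← Finset.sum_add_distrib]
  refine Finset.sum_congr rfl fun V _ => ?_
  rw [Pi.add_apply, cc_add, AddMonoidAlgebra.single_add]

theorem NT_zero : NT Q h (0 : VV B → SS B Λ) = 0 := by
  unfold NT
  refine Finset.sum_eq_zero fun V _ => ?_
  rw [Pi.zero_apply, cc_zero, AddMonoidAlgebra.single_zero]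

theorem cc_act {σ : Equiv.Perm B} (hσ : σ ∈ Q.W) (V : VV B) (f : SS B Λ) :
    act σ (cc Q h V f) = cc Q h (fun j => vact σ (V j)) (rename σ f) := by
  unfold cc
  rw [map_mul, act_trK, map_mul, act_toK, e_act Q σ hσ, e_act Q σ hσ, lamV_vact, lamV_vact,
    hv_lact]

/-- equivariant functions of pairs -/
def Equ (τ : VV B → SS B Λ) : Prop :=
  ∀ σ ∈ Q.W, ∀ V, τ (fun j => vact σ (V j)) = rename σ (τ V)

theorem NT_inv {τ : VV B → SS B Λ} (hτ : Equ Q τ) {σ : Equiv.Perm B} (hσ : σ ∈ Q.W)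
    (mu : B → ℤ) : (NT Q h τ).coeff (lact σ mu) = act σ ((NT Q h τ).coeff mu) := by
  rw [NT_coeff, NT_coeff, map_sum]
  symm
  have hbij : Function.Bijective (fun (V : VV B) (j : Fin 2) => vact σ (V j)) := by
    constructor
    · intro V V' hVV
      funext j
      exact (vact_bijective σ).1 (congrFun hVV j)
    · intro V
      choose W hW using fun j => (vact_bijective σ).2 (V j)
      exact ⟨W, funext hW⟩
  refine Finset.sum_bij (fun V _ => fun j => vact σ (V j)) ?_ ?_ ?_ ?_
  · intro V hV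
    rw [Finset.mem_filter] at hV ⊢
    refine ⟨Finset.mem_univ _, ?_⟩
    rw [lamV_vact, lamV_vact, ← hV.2]
    rfl
  · intro V _ V' _ hVV
    exact hbij.1 hVV
  · intro V hV
    obtain ⟨W, hW⟩ := hbij.2 V
    refine ⟨W, ?_, hW⟩
    rw [Finset.mem_filter] at hV ⊢
    refine ⟨Finset.mem_univ _, ?_⟩
    have h1 := hV.2
    rw [← hW] at h1
    simp only [lamV_vact] at h1
    exact lact_injective σ h1
  · intro V _
    rw [cc_act Q h hσ, hτ σ hσ V]

/-- `e mu` is regular at `x_b - x_a + c`, `c ≠ 0` -/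
theorem e_reg_lin {a b : B} (hab : a ≠ b) {c : Λ} (hc : c ≠ 0) (mu : B → ℤ) :
    RegAt (X b - X a + C c) (Q.e mu) := by
  have hδ := prime_lin (Λ := Λ) hab c
  unfold QD.e
  rw [div_eq_mul_inv]
  refine RegAt.mul' hδ (RegAt.toK' hδ _) (RegAt.inv' ?_)
  intro hd
  unfold QD.den at hd
  obtain ⟨p, _, hp⟩ := (hδ.dvd_finsetProd_iff _).mp hd
  by_cases h1 : p.1 = p.2
  · rw [h1, sub_self, sub_self, Int.toNat_zero, pow_zero] at hp
    exact hδ.not_dvd_one hp
  · exact not_lin_dvd hab hc h1 (hδ.dvd_of_dvd_pow hp)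

end

end Vale.Agent.P291.HP
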