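import Vale.Agent.P291.H125.HP2

/-!
# HP3: explicit form of the coefficients of the pairs
-/

open MvPolynomial

set_option linter.unusedSectionVars false

namespace Vale.Agent.P291.HP

noncomputable section

/-- indicator -/
def ind {B : Type*} [DecidableEq B] (V : Finset (Option B)) (o : Option B) : ℤ :=
  if o ∈ V then 1 else 0

theorem ext_lamV {B : Type*} [DecidableEq B] (V : Finset (Option B)) (o : Option B) :
    ext (lamV V) o = ind V o - ind V none := by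
  cases o with
  | none => simp [ext]
  | some b => rfl

theorem ext_add {B : Type*} (a b : B → ℤ) (o : Option B) : ext (a + b) o = ext a o + ext b o := by
  cases o <;> simp [ext]

theorem local_eq {R : Type*} [CommRing R] (x h : R) (r0 s0 r1 s1 : Prop) [Decidable r0]
    [Decidable s0] [Decidable r1] [Decidable s1] (t : ℤ)
    (ht : t = ((if r0 then 1 else 0) - (if s0 then 1 else 0)) +
      ((if r1 then 1 else 0) - (if s1 then 1 else 0))) :
    x ^ (((if r0 then 1 else 0) - (if s0 then 1 else 0) : ℤ)).toNat *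
      (x + h * (((if r0 then 1 else 0) - (if s0 then 1 else 0) : ℤ) : R)) ^
        (((if r1 then 1 else 0) - (if s1 then 1 else 0) : ℤ)).toNat =
    x ^ (min 1 t.toNat) * (x + h) ^ (t - 1).toNat *
      ((if r0 ∧ ¬ r1 ∧ ¬ s0 ∧ s1 then x else 1) * (if ¬ r0 ∧ r1 ∧ s0 ∧ ¬ s1 then x - h else 1)) := by
  subst ht
  by_cases h1 : r0 <;> by_cases h2 : s0 <;> by_cases h3 : r1 <;> by_cases h4 : s1 <;>
    simp [h1, h2, h3, h4, sub_eq_add_neg]

variable {I E B Λ : Type*} [Fintype E] [DecidableEq I] [Fintype B] [DecidableEq B] [CommRing Λ]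
  [IsDomain Λ]
variable (Q : QD I E B Λ) (h : Λ)

/-- numerator of the deformed `e lam` -/
def HN (lam : B → ℤ) : SS B Λ :=
  ∏ p ∈ Q.Wt, (Q.xi p ^ (min 1 (lam p.2.1 - ext lam p.2.2).toNat) *
    (Q.xi p + C h) ^ (lam p.2.1 - ext lam p.2.2 - 1).toNat)

/-- denominator of the deformed `e lam` -/
def HD (lam : B → ℤ) : SS B Λ :=
  ∏ p ∈ Q.Prs, ((X p.1 - X p.2 : SS B Λ) ^ (min 1 (lam p.1 - lam p.2).toNat) *
    (X p.1 - X p.2 + C (-h)) ^ (lam p.1 - lam p.2 - 1).toNat)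

/-- additional numerator of a pair -/
def MN (V : VV B) : SS B Λ :=
  ∏ p ∈ Q.Wt, ((if some p.2.1 ∈ V 0 ∧ ¬ some p.2.1 ∈ V 1 ∧ ¬ p.2.2 ∈ V 0 ∧ p.2.2 ∈ V 1
      then Q.xi p else 1) *
    (if ¬ some p.2.1 ∈ V 0 ∧ some p.2.1 ∈ V 1 ∧ p.2.2 ∈ V 0 ∧ ¬ p.2.2 ∈ V 1
      then Q.xi p - C h else 1))

/-- additional denominator of a pair -/
def MD (V : VV B) : SS B Λ :=
  ∏ p ∈ Q.Prs, ((if some p.1 ∈ V 0 ∧ ¬ some p.1 ∈ V 1 ∧ ¬ some p.2 ∈ V 0 ∧ some p.2 ∈ V 1
      then (X p.1 - X p.2 : SS B Λ) else 1) *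
    (if ¬ some p.1 ∈ V 0 ∧ some p.1 ∈ V 1 ∧ some p.2 ∈ V 0 ∧ ¬ some p.2 ∈ V 1
      then (X p.1 - X p.2 - C (-h) : SS B Λ) else 1))

theorem trA_xo (c : B → Λ) (o : Option B) :
    trA c (xo Λ o) = xo Λ o + C (o.elim 0 c) := by
  cases o with
  | none => simp [xo]
  | some b => simp only [xo, Option.elim]; rw [trA_X]

theorem trA_xi (lam : B → ℤ) (p : E × B × Option B) :
    trA (hv h lam) (Q.xi p) = Q.xi p + C h * ((lam p.2.1 - ext lam p.2.2 : ℤ) : SS B Λ) := by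
  unfold QD.xi
  rw [map_add, map_sub, trA_xo, trA_X, trA_C]
  have h1 : (C (p.2.2.elim 0 (hv h lam)) : SS B Λ) = - (C h * ((ext lam p.2.2 : ℤ) : SS B Λ)) := by
    rcases p.2.2 with _ | s
    · simp [ext]
    · simp [ext, hv]
  have h2 : (C (hv h lam p.2.1) : SS B Λ) = - (C h * ((lam p.2.1 : ℤ) : SS B Λ)) := by
    simp [hv]
  rw [h1, h2]
  push_cast
  ring

theorem trA_diff (lam : B → ℤ) (p : B × B) :
    trA (hv h lam) (X p.1 - X p.2 : SS B Λ) =
      (X p.1 - X p.2) + C (-h) * ((lam p.1 - lam p.2 : ℤ) : SS B Λ) := by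
  rw [map_sub, trA_X, trA_X]
  have h2 : ∀ b, (C (hv h lam b) : SS B Λ) = - (C h * ((lam b : ℤ) : SS B Λ)) := by
    intro b; simp [hv]
  rw [h2, h2]
  push_cast
  rw [map_neg]
  ring

theorem num_eq (V : VV B) :
    Q.rho (lamV (V 0)) * trA (hv h (lamV (V 0))) (Q.rho (lamV (V 1))) =
      HN Q h (lamV (V 0) + lamV (V 1)) * MN Q h V := by
  unfold QD.rho HN MN
  rw [map_prod, ← Finset.prod_mul_distrib, ← Finset.prod_mul_distrib]
  refine Finset.prod_congr rfl fun p _ => ?_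
  rw [map_pow, trA_xi]
  have e0 : lamV (V 0) p.2.1 - ext (lamV (V 0)) p.2.2 =
      (if some p.2.1 ∈ V 0 then 1 else 0) - (if p.2.2 ∈ V 0 then 1 else 0) := by
    rw [ext_lamV]; simp only [lamV, ind]; ring
  have e1 : lamV (V 1) p.2.1 - ext (lamV (V 1)) p.2.2 =
      (if some p.2.1 ∈ V 1 then 1 else 0) - (if p.2.2 ∈ V 1 then 1 else 0) := by
    rw [ext_lamV]; simp only [lamV, ind]; ring
  rw [e0, e1]
  exact local_eq (Q.xi p) (C h) _ _ _ _ _ (by
    rw [ext_add, Pi.add_apply, ← e0, ← e1]; ring)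

theorem den_eq (V : VV B) :
    Q.den (lamV (V 0)) * trA (hv h (lamV (V 0))) (Q.den (lamV (V 1))) =
      HD Q h (lamV (V 0) + lamV (V 1)) * MD Q h V := by
  unfold QD.den HD MD
  rw [map_prod, ← Finset.prod_mul_distrib, ← Finset.prod_mul_distrib]
  refine Finset.prod_congr rfl fun p _ => ?_
  rw [map_pow, trA_diff]
  have e0 : lamV (V 0) p.1 - lamV (V 0) p.2 =
      (if some p.1 ∈ V 0 then 1 else 0) - (if some p.2 ∈ V 0 then 1 else 0) := by
    simp only [lamV]; ring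
  have e1 : lamV (V 1) p.1 - lamV (V 1) p.2 =
      (if some p.1 ∈ V 1 then 1 else 0) - (if some p.2 ∈ V 1 then 1 else 0) := by
    simp only [lamV]; ring
  rw [e0, e1]
  exact local_eq (X p.1 - X p.2 : SS B Λ) (C (-h)) _ _ _ _ _ (by
    rw [Pi.add_apply, Pi.add_apply, ← e0, ← e1]; ring)

theorem trA_ne_zero {c : B → Λ} {f : SS B Λ} (hf : f ≠ 0) : trA c f ≠ 0 := by
  intro h0
  apply hf
  have := trA_neg_trA c f
  rw [h0, map_zero] at this
  exact this.symm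

theorem HD_mul_MD_ne_zero (V : VV B) :
    HD Q h (lamV (V 0) + lamV (V 1)) * MD Q h V ≠ 0 := by
  rw [← den_eq]
  exact mul_ne_zero (den_ne_zero Q _) (trA_ne_zero (den_ne_zero Q _))

theorem MD_ne_zero (V : VV B) : MD Q h V ≠ 0 := right_ne_zero_of_mul (HD_mul_MD_ne_zero Q h V)

/-- explicit form of the coefficient -/
theorem cc_formula (V : VV B) (f : SS B Λ) :
    cc Q h V f * toK (HD Q h (lamV (V 0) + lamV (V 1)) * MD Q h V) =
      toK (HN Q h (lamV (V 0) + lamV (V 1)) * MN Q h V * trA (hv h (lamV (V 0))) f) := by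
  rw [← den_eq, ← num_eq]
  unfold cc QD.e
  rw [map_mul, map_div₀, trK_toK, trK_toK, trK_toK]
  have d1 : toK (Q.den (lamV (V 0))) ≠ 0 := toK_ne_zero (den_ne_zero Q _)
  have d2 : toK (trA (hv h (lamV (V 0))) (Q.den (lamV (V 1)))) ≠ 0 :=
    toK_ne_zero (trA_ne_zero (den_ne_zero Q _))
  simp only [toK, map_mul] at d1 d2 ⊢
  field_simp

end

end Vale.Agent.P291.HP
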