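import Vale.Agent.P291.H125.HP3

/-!
# HP4: regularity of the coefficients of sums of pairs
-/

open MvPolynomial

set_option linter.unusedSectionVars false

namespace Vale.Agent.P291.HP

noncomputable section

variable {I E B Λ : Type*} [Fintype E] [DecidableEq I] [Fintype B] [DecidableEq B] [CommRing Λ]
  [IsDomain Λ]
variable (Q : QD I E B Λ) (h : Λ)

theorem toK_mul (f g : SS B Λ) : toK (f * g) = toK f * toK g := map_mul _ _ _

theorem toK_one : (toK (1 : SS B Λ) : KK B Λ) = 1 := map_one _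

theorem lamV_apply (V : Finset (Option B)) (b : B) :
    lamV V b = (if some b ∈ V then 1 else 0) - (if none ∈ V then 1 else 0) := rfl

theorem lamV_sub (V : Finset (Option B)) (a b : B) : lamV V a - lamV V b =
    (if some a ∈ V then 1 else 0) - (if some b ∈ V then 1 else 0) := by
  rw [lamV_apply, lamV_apply]; ring

theorem lamV_sub_abs (V : Finset (Option B)) (a b : B) : (lamV V a - lamV V b).natAbs ≤ 1 := by
  rw [lamV_sub]
  by_cases h1 : some a ∈ V <;> by_cases h2 : some b ∈ V <;> simp [h1, h2]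

theorem trA_lin (lam : B → ℤ) (a b : B) (c : Λ) :
    trA (hv h lam) (X b - X a + C c : SS B Λ) =
      X b - X a + C (c + h * ((lam a - lam b : ℤ) : Λ)) := by
  rw [map_add, map_sub, trA_X, trA_X, trA_C]
  have h2 : ∀ b, (C (hv h lam b) : SS B Λ) = - C (h * (lam b : Λ)) := by
    intro b; simp [hv]
  rw [h2, h2, map_add, Int.cast_sub, mul_sub, map_sub]
  ring

/-- a coefficient of a pair has at most a simple pole at `x_a - x_b` -/
theorem cc_simple (hh : h ≠ 0) {a b : B} (hab : a ≠ b) (hv' : Q.vx a = Q.vx b) (V : VV B)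
    (f : SS B Λ) : RegAt (X a - X b) (toK (X a - X b) * cc Q h V f) := by
  have hδ := delta_prime (Λ := Λ) hab
  unfold cc
  by_cases hV : (some a ∈ V 0 ↔ some b ∈ V 0)
  · have hl : lamV (V 0) a = lamV (V 0) b := by
      simp only [lamV_apply]
      by_cases h1 : some a ∈ V 0
      · simp [h1, hV.1 h1]
      · have h2 : ¬ some b ∈ V 0 := fun h2 => h1 (hV.2 h2)
        simp [h1, h2]
    have r0 := C2.e_reg Q hab hv' (lamV (V 0)) 0 (by rw [hl]; simp)
    rw [pow_zero, toK_one, one_mul] at r0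
    have r1 := C2.e_reg Q hab hv' (lamV (V 1)) 1 (lamV_sub_abs _ _ _)
    rw [pow_one] at r1
    have r2 := RegAt.trK (c := hv h (lamV (V 0))) (RegAt.mul' hδ (RegAt.toK' hδ f) r1)
    have e1 : trA (hv h (lamV (V 0))) (X a - X b : SS B Λ) = X a - X b := by
      have := trA_lin h (lamV (V 0)) b a (0 : Λ)
      rw [hl] at this
      simpa using this
    rw [e1] at r2
    have e2 : trK (hv h (lamV (V 0))) (toK f * (toK (X a - X b) * Q.e (lamV (V 1)))) =
        toK (X a - X b) * trK (hv h (lamV (V 0))) (toK f * Q.e (lamV (V 1))) := by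
      have : (toK f * (toK (X a - X b) * Q.e (lamV (V 1))) : KK B Λ) =
          toK (X a - X b) * (toK f * Q.e (lamV (V 1))) := by ring
      rw [this, map_mul, trK_toK, e1]
    rw [e2] at r2
    have := RegAt.mul' hδ r0 r2
    convert this using 1
    ring
  · have r0 := C2.e_reg Q hab hv' (lamV (V 0)) 1 (lamV_sub_abs _ _ _)
    rw [pow_one] at r0
    have hc : h * ((lamV (V 0) a - lamV (V 0) b : ℤ) : Λ) ≠ 0 := by
      refine mul_ne_zero hh ?_
      rw [lamV_sub]
      by_cases h1 : some a ∈ V 0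
      · have h2 : ¬ some b ∈ V 0 := fun h2 => hV ⟨fun _ => h2, fun _ => h1⟩
        simp [h1, h2]
      · have h2 : some b ∈ V 0 := by
          by_contra h2; exact hV ⟨fun h3 => absurd h3 h1, fun h3 => absurd h3 h2⟩
        simp [h1, h2]
    have r1 := e_reg_lin Q (Ne.symm hab) hc (lamV (V 1))
    have r2 := RegAt.trK (c := hv h (lamV (V 0))) (RegAt.mul' (prime_lin (Ne.symm hab) _)
      (RegAt.toK' (prime_lin (Ne.symm hab) _) f) r1)
    have e1 : trA (hv h (lamV (V 0))) (X a - X b +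
        C (h * ((lamV (V 0) a - lamV (V 0) b : ℤ) : Λ)) : SS B Λ) = X a - X b := by
      rw [trA_lin]
      have : h * ((lamV (V 0) a - lamV (V 0) b : ℤ) : Λ) +
          h * ((lamV (V 0) b - lamV (V 0) a : ℤ) : Λ) = 0 := by push_cast; ring
      rw [this, C_0, add_zero]
    rw [e1] at r2
    have := RegAt.mul' hδ r0 r2
    convert this using 1
    ring

/-- regularity of a symmetric coefficient -/
theorem reg_of_sym [Algebra ℚ Λ] {a b : B} (hab : a ≠ b) {y : KK B Λ}
    (hy : RegAt (X a - X b) (toK (X a - X b) * y)) (hs : act (Equiv.swap a b) y = y) :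
    RegAt (X a - X b) y := by
  have h1 := C2.reg_sym a b hab y hy
  rw [hs] at h1
  have hδ := delta_prime (Λ := Λ) hab
  have h2 := RegAt.mul' hδ (RegAt.toK' hδ (C (algebraMap ℚ Λ (1 / 2)))) h1
  have e : (toK (C (algebraMap ℚ Λ (1 / 2))) * (y + y) : KK B Λ) = y := by
    have e1 : (toK (C (algebraMap ℚ Λ (1 / 2))) * 2 : KK B Λ) = 1 := by
      have h2 : (2 : KK B Λ) = toK (C (algebraMap ℚ Λ 2)) := by
        rw [map_ofNat, map_ofNat]
        exact (map_ofNat (algebraMap (SS B Λ) (KK B Λ)) 2).symm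
      have h3 : (1 / 2 : ℚ) * 2 = 1 := by norm_num
      rw [h2, ← toK_mul, ← C_mul, ← map_mul, h3, map_one, C_1, toK_one]
    calc (toK (C (algebraMap ℚ Λ (1 / 2))) * (y + y) : KK B Λ)
        = (toK (C (algebraMap ℚ Λ (1 / 2))) * 2) * y := by ring
      _ = y := by rw [e1, one_mul]
  rwa [e] at h2

theorem hv_int_ne [CharZero Λ] (hh : h ≠ 0) {n : ℤ} (hn : n ≠ 0) : h * (n : Λ) ≠ 0 :=
  mul_ne_zero hh (Int.cast_ne_zero.2 hn)

/-- pairs not separated by the first set have no pole at `x_b - x_a + h` -/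
theorem cc_reg_lin [CharZero Λ] (hh : h ≠ 0) {a b : B} (hab : a ≠ b) (V : VV B) (f : SS B Λ)
    (hV : ¬ (some a ∈ V 0 ∧ ¬ some b ∈ V 0)) : RegAt (X b - X a + C h) (cc Q h V f) := by
  have hδ := prime_lin (Λ := Λ) hab h
  unfold cc
  refine RegAt.mul' hδ (e_reg_lin Q hab hh _) ?_
  have hc : h * ((1 + (lamV (V 0) b - lamV (V 0) a) : ℤ) : Λ) ≠ 0 := by
    refine hv_int_ne h hh ?_
    rw [lamV_sub]
    by_cases h1 : some a ∈ V 0
    · have h2 : some b ∈ V 0 := by
        by_contra h2; exact hV ⟨h1, h2⟩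
      simp [h1, h2]
    · by_cases h2 : some b ∈ V 0 <;> simp [h1, h2]
  have r1 := e_reg_lin Q hab hc (lamV (V 1))
  have r2 := RegAt.trK (c := hv h (lamV (V 0))) (RegAt.mul' (prime_lin hab _)
    (RegAt.toK' (prime_lin hab _) f) r1)
  rw [trA_lin] at r2
  have e : h * ((1 + (lamV (V 0) b - lamV (V 0) a) : ℤ) : Λ) +
      h * ((lamV (V 0) a - lamV (V 0) b : ℤ) : Λ) = h := by push_cast; ring
  rwa [e] at r2

/-- partner terms: the poles at `x_b - x_a + h` cancel -/
theorem cc_partner (hh : h ≠ 0) {a b : B} (hab : a ≠ b) (hv' : Q.vx a = Q.vx b)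
    {G : Finset (Option B) → SS B Λ} (hG : G ∈ Q.Eqv) (f : SS B Λ) (V : VV B)
    (h1 : some a ∈ V 0) (h2 : ¬ some b ∈ V 0) :
    RegAt (X b - X a + C h) (cc Q h V (f * G (V 1)) +
      cc Q h ![V 0, vact (Equiv.swap a b) (V 1)] (f * G (vact (Equiv.swap a b) (V 1)))) := by
  have hδ := prime_lin (Λ := Λ) hab h
  have hδ0 := delta_prime (Λ := Λ) hab
  have hσ := C2.swap_mem_W Q hv'
  have e1 : cc Q h V (f * G (V 1)) +
      cc Q h ![V 0, vact (Equiv.swap a b) (V 1)] (f * G (vact (Equiv.swap a b) (V 1))) =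
      Q.e (lamV (V 0)) * (trK (hv h (lamV (V 0))) (toK f) *
        trK (hv h (lamV (V 0))) (toK (G (V 1)) * Q.e (lamV (V 1)) +
          act (Equiv.swap a b) (toK (G (V 1)) * Q.e (lamV (V 1))))) := by
    have e2 : act (Equiv.swap a b) (toK (G (V 1)) * Q.e (lamV (V 1))) =
        toK (G (vact (Equiv.swap a b) (V 1))) * Q.e (lamV (vact (Equiv.swap a b) (V 1))) := by
      rw [map_mul, act_toK, e_act Q _ hσ, hG _ hσ, lamV_vact]
    rw [e2, map_add, mul_add, mul_add]
    have k : ∀ (W : VV B) (g : SS B Λ), W 0 = V 0 → cc Q h W (f * g) =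
        Q.e (lamV (V 0)) * (trK (hv h (lamV (V 0))) (toK f) *
          trK (hv h (lamV (V 0))) (toK g * Q.e (lamV (W 1)))) := by
      intro W g hW
      unfold cc
      rw [hW, ← map_mul]
      congr 2
      rw [toK_mul]; ring
    rw [k V _ rfl, k ![V 0, vact (Equiv.swap a b) (V 1)] _ rfl]
    rfl
  rw [e1]
  refine RegAt.mul' hδ (e_reg_lin Q hab hh _) (RegAt.mul' hδ ?_ ?_)
  · rw [trK_toK]; exact RegAt.toK' hδ _
  · have r1 := C2.e_reg Q hab hv' (lamV (V 1)) 1 (lamV_sub_abs _ _ _)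
    rw [pow_one] at r1
    have r2 : RegAt (X a - X b) (toK (X a - X b) * (toK (G (V 1)) * Q.e (lamV (V 1)))) := by
      have := RegAt.mul' hδ0 (RegAt.toK' hδ0 (G (V 1))) r1
      convert this using 1
      ring
    have r3 := C2.reg_sym a b hab _ r2
    have r4 := RegAt.trK (c := hv h (lamV (V 0))) r3
    refine regAt_unit ?_ r4
    have e3 : trA (hv h (lamV (V 0))) (X a - X b : SS B Λ) = -(X b - X a + C h) := by
      have := trA_lin h (lamV (V 0)) b a (0 : Λ)
      rw [C_0, add_zero] at this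
      rw [this]
      have : (lamV (V 0) b - lamV (V 0) a : ℤ) = -1 := by
        rw [lamV_sub]; simp [h1, h2]
      rw [this]
      simp
      ring
    rw [e3]
    exact (neg_dvd).2 dvd_rfl

end

end Vale.Agent.P291.HP
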