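import Vale.Agent.P291.H125.HP4
import Vale.Agent.P291.I1Blk

/-!
# HP5: leading coefficients of sums of pairs
-/

open MvPolynomial

set_option linter.unusedSectionVars false

namespace Vale.Agent.P291.HP

noncomputable section

variable {I E B Λ : Type*} [Fintype E] [DecidableEq I] [Fintype B] [DecidableEq B] [CommRing Λ]
  [IsDomain Λ]
variable (Q : QD I E B Λ) (h : Λ)

/-- complementary pairs -/
def Cp (V : VV B) : Prop := Q.dm (V 0) + Q.dm (V 1) = Q.dm Finset.univ

theorem dm_none (V : Finset (Option B)) : Q.dm V none = if none ∈ V then 1 else 0 := by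
  unfold QD.dm
  split_ifs with h
  · rw [Finset.card_eq_one]
    refine ⟨none, ?_⟩
    ext o
    rcases o with _ | b
    · simp [QD.vo, h]
    · simp [QD.vo]
  · rw [Finset.card_eq_zero, Finset.filter_eq_empty_iff]
    intro o ho ho'
    rcases o with _ | b
    · exact h ho
    · simp [QD.vo] at ho'

theorem Cp.none_sum {V : VV B} (hV : Cp Q V) :
    ((if none ∈ V 0 then 1 else 0) + (if none ∈ V 1 then 1 else 0) : ℤ) = 1 := by
  have := congrFun hV none
  rw [Pi.add_apply, dm_none, dm_none, dm_none] at this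
  simp only [Finset.mem_univ, if_true] at this
  by_cases h1 : none ∈ V 0 <;> by_cases h2 : none ∈ V 1 <;> simp [h1, h2] at this ⊢

theorem Cp.sum_apply {V : VV B} (hV : Cp Q V) (b : B) :
    (lamV (V 0) + lamV (V 1)) b =
      (if some b ∈ V 0 then 1 else 0) + (if some b ∈ V 1 then 1 else 0) - 1 := by
  rw [Pi.add_apply, lamV_apply, lamV_apply]
  have := Cp.none_sum Q hV
  linarith

/-- span of the products of two equivariant dressings of complementary allowed types -/
def DP (A : (Option I → ℕ) → (Option I → ℕ) → Prop) : Submodule Λ (VV B → SS B Λ) :=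
  Submodule.span Λ {τ | ∃ a b, A a b ∧ a + b = Q.dm Finset.univ ∧ ∃ F ∈ Q.EqvD a,
    ∃ G ∈ Q.EqvD b, τ = fun V => F (V 0) * G (V 1)}

variable {A : (Option I → ℕ) → (Option I → ℕ) → Prop}

theorem DP_equ {τ : VV B → SS B Λ} (hτ : τ ∈ DP Q A) : Equ Q τ := by
  refine Submodule.span_induction (p := fun τ _ => Equ Q τ) ?_ ?_ ?_ ?_ hτ
  · rintro τ ⟨a, b, _, _, F, hF, G, hG, rfl⟩ σ hσ V
    show F (vact σ (V 0)) * G (vact σ (V 1)) = rename σ (F (V 0) * G (V 1))
    rw [hF.1 σ hσ, hG.1 σ hσ, map_mul]
  · intro σ _ V; simp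
  · intro x y _ _ hx hy σ hσ V
    rw [Pi.add_apply, Pi.add_apply, map_add, hx σ hσ, hy σ hσ]
  · intro c x _ hx σ hσ V
    rw [Pi.smul_apply, Pi.smul_apply, map_smul, hx σ hσ]

theorem DP_supp {τ : VV B → SS B Λ} (hτ : τ ∈ DP Q A) {V : VV B} (hV : τ V ≠ 0) :
    A (Q.dm (V 0)) (Q.dm (V 1)) ∧ Cp Q V := by
  revert V
  refine Submodule.span_induction
    (p := fun τ _ => ∀ {V : VV B}, τ V ≠ 0 → A (Q.dm (V 0)) (Q.dm (V 1)) ∧ Cp Q V) ?_ ?_ ?_ ?_ hτ
  · rintro τ ⟨a, b, hA, hab, F, hF, G, hG, rfl⟩ V hV
    have h1 := hF.2 (V 0) (left_ne_zero_of_mul hV)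
    have h2 := hG.2 (V 1) (right_ne_zero_of_mul hV)
    refine ⟨by rw [h1, h2]; exact hA, ?_⟩
    unfold Cp
    rw [h1, h2, hab]
  · intro V hV; exact absurd rfl hV
  · intro x y _ _ hx hy V hV
    by_cases h0 : x V = 0
    · refine hy fun h1 => hV ?_
      rw [Pi.add_apply, h0, h1, add_zero]
    · exact hx h0
  · intro c x _ hx V hV
    refine hx fun h0 => hV ?_
    rw [Pi.smul_apply, h0, smul_zero]

theorem NT_smul (c : Λ) (τ : VV B → SS B Λ) (mu : B → ℤ) :
    (NT Q h (c • τ)).coeff mu = toK (C c) * (NT Q h τ).coeff mu := by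
  rw [NT_coeff, NT_coeff, Finset.mul_sum]
  refine Finset.sum_congr rfl fun V _ => ?_
  rw [Pi.smul_apply, MvPolynomial.smul_eq_C_mul, cc_C_mul]

/-- the neighbour `lam + e_a - e_b` -/
def nb (a b : B) (lam : B → ℤ) : B → ℤ :=
  fun c => lam c + ((if c = a then 1 else 0) - (if c = b then 1 else 0))

theorem lamV_vact_swap {a b : B} (hab : a ≠ b) {V : Finset (Option B)} (ha : some a ∉ V)
    (hb : some b ∈ V) (c : B) : lamV (vact (Equiv.swap a b) V) c =
      lamV V c + ((if c = a then 1 else 0) - (if c = b then 1 else 0)) := by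
  rw [lamV_vact]
  show lamV V ((Equiv.swap a b)⁻¹ c) = _
  rw [Equiv.swap_inv]
  by_cases h1 : c = a
  · subst h1
    rw [Equiv.swap_apply_left, if_pos rfl, if_neg hab, lamV_apply, lamV_apply, if_pos hb,
      if_neg ha]
    ring
  · by_cases h2 : c = b
    · subst h2
      rw [Equiv.swap_apply_right, if_neg h1, if_pos rfl, lamV_apply, lamV_apply, if_pos hb,
        if_neg ha]
      ring
    · rw [Equiv.swap_apply_of_ne_of_ne h1 h2, if_neg h1, if_neg h2]
      ring

theorem lamV_vact_swap' {a b : B} (hab : a ≠ b) {V : Finset (Option B)} (ha : some a ∈ V)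
    (hb : some b ∉ V) (c : B) : lamV (vact (Equiv.swap a b) V) c =
      lamV V c - ((if c = a then 1 else 0) - (if c = b then 1 else 0)) := by
  have := lamV_vact_swap (Ne.symm hab) (V := V) hb ha c
  rw [Equiv.swap_comm] at this
  rw [this]; ring

/-- poles at `x_b - x_a + h` cancel between neighbours -/
theorem reg_pair [CharZero Λ] (hh : h ≠ 0) {τ : VV B → SS B Λ} (hτ : τ ∈ DP Q A) {a b : B}
    (hab : a ≠ b) (hv' : Q.vx a = Q.vx b) {lam : B → ℤ} (ha : lam a = 0) (hb : lam b = 0) :
    RegAt (X b - X a + C h) ((NT Q h τ).coeff lam + (NT Q h τ).coeff (nb a b lam)) := by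
  have hδ := prime_lin (Λ := Λ) hab h
  have hσ := C2.swap_mem_W Q hv'
  refine Submodule.span_induction (p := fun τ _ => RegAt (X b - X a + C h)
    ((NT Q h τ).coeff lam + (NT Q h τ).coeff (nb a b lam))) ?_ ?_ ?_ ?_ hτ
  · rintro τ ⟨a', b', _, hab', F, hF, G, hG, rfl⟩
    have hsupp : ∀ V : VV B, F (V 0) * G (V 1) ≠ 0 → Cp Q V := by
      intro V hV
      unfold Cp
      rw [hF.2 (V 0) (left_ne_zero_of_mul hV), hG.2 (V 1) (right_ne_zero_of_mul hV), hab']
    classical
    have red : ∀ mu : B → ℤ, (NT Q h (fun V : VV B => F (V 0) * G (V 1))).coeff mu =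
        ∑ V : VV B with (lamV (V 0) + lamV (V 1) = mu ∧ Cp Q V),
          cc Q h V (F (V 0) * G (V 1)) := by
      intro mu
      symm
      rw [NT_coeff, ← Finset.filter_filter]
      refine Finset.sum_filter_of_ne ?_
      intro V _ hne
      apply hsupp
      intro h0
      apply hne
      rw [h0, cc_zero]
    rw [red, red]
    set S : Finset (VV B) := Finset.univ.filter
      (fun V : VV B => lamV (V 0) + lamV (V 1) = lam ∧ Cp Q V) with hS
    rw [← Finset.sum_filter_add_sum_filter_not S (fun V : VV B => some a ∈ V 0 ∧ some b ∉ V 0)]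
    have hmem : ∀ V : VV B, V ∈ S.filter (fun V : VV B => some a ∈ V 0 ∧ some b ∉ V 0) →
        lamV (V 0) + lamV (V 1) = lam ∧ Cp Q V ∧ some a ∈ V 0 ∧ some b ∉ V 0 ∧
        some a ∉ V 1 ∧ some b ∈ V 1 := by
      intro V hV
      rw [Finset.mem_filter, hS, Finset.mem_filter] at hV
      obtain ⟨⟨_, h1, h2⟩, h3, h4⟩ := hV
      refine ⟨h1, h2, h3, h4, ?_, ?_⟩
      · intro h5
        have := Cp.sum_apply Q h2 a
        rw [h1, ha, if_pos h3, if_pos h5] at this
        norm_num at this
      · by_contra h5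
        have := Cp.sum_apply Q h2 b
        rw [h1, hb, if_neg h4, if_neg h5] at this
        norm_num at this
    have hsum3 : ∑ V : VV B with (lamV (V 0) + lamV (V 1) = nb a b lam ∧ Cp Q V),
          cc Q h V (F (V 0) * G (V 1)) =
        ∑ V ∈ S.filter (fun V : VV B => some a ∈ V 0 ∧ some b ∉ V 0),
          cc Q h ![V 0, vact (Equiv.swap a b) (V 1)]
            (F (V 0) * G (vact (Equiv.swap a b) (V 1))) := by
      symm
      refine Finset.sum_bij (fun V _ => ![V 0, vact (Equiv.swap a b) (V 1)]) ?_ ?_ ?_ ?_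
      · intro V hV
        obtain ⟨h1, h2, h3, h4, h5, h6⟩ := hmem V hV
        rw [Finset.mem_filter]
        refine ⟨Finset.mem_univ _, ?_, ?_⟩
        · funext c
          simp only [Matrix.cons_val_zero, Matrix.cons_val_one, Pi.add_apply]
          rw [lamV_vact_swap hab h5 h6 c]
          unfold nb
          rw [← h1, Pi.add_apply]
          ring
        · unfold Cp at h2 ⊢
          simp only [Matrix.cons_val_zero, Matrix.cons_val_one]
          rw [I1.dm_vact Q hσ]
          exact h2
      · intro V hV V' hV' he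
        have e0 := congrFun he 0
        have e1 := congrFun he 1
        simp only [Matrix.cons_val_zero, Matrix.cons_val_one] at e0 e1
        have e2 := (vact_bijective (Equiv.swap a b)).1 e1
        funext j
        fin_cases j
        · exact e0
        · exact e2
      · intro V hV
        rw [Finset.mem_filter] at hV
        obtain ⟨_, h1, h2⟩ := hV
        have hva : some a ∈ V 0 ∧ some a ∈ V 1 := by
          have := Cp.sum_apply Q h2 a
          rw [h1] at this
          simp only [nb, ha, if_neg hab, if_true] at this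
          by_cases h3 : some a ∈ V 0 <;> by_cases h4 : some a ∈ V 1 <;>
            simp [h3, h4] at this ⊢
        have hvb : some b ∉ V 0 ∧ some b ∉ V 1 := by
          have := Cp.sum_apply Q h2 b
          rw [h1] at this
          simp only [nb, hb, if_neg (Ne.symm hab), if_true] at this
          by_cases h3 : some b ∈ V 0 <;> by_cases h4 : some b ∈ V 1 <;>
            simp [h3, h4] at this ⊢
        refine ⟨![V 0, vact (Equiv.swap a b) (V 1)], ?_, ?_⟩
        · rw [Finset.mem_filter, hS, Finset.mem_filter]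
          simp only [Matrix.cons_val_zero, Matrix.cons_val_one]
          refine ⟨⟨Finset.mem_univ _, ?_, ?_⟩, hva.1, hvb.1⟩
          · funext c
            rw [Pi.add_apply, lamV_vact_swap' hab hva.2 hvb.2 c]
            have := congrFun h1 c
            rw [Pi.add_apply] at this
            unfold nb at this
            linarith
          · unfold Cp at h2 ⊢
            simp only [Matrix.cons_val_zero, Matrix.cons_val_one]
            rw [I1.dm_vact Q hσ]
            exact h2
        · funext j
          fin_cases j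
          · rfl
          · exact C2.vact_swap_vact_swap a b (V 1)
      · intro V _
        simp only [Matrix.cons_val_zero, Matrix.cons_val_one]
    rw [hsum3]
    have hre : ∀ x y z : KK B Λ, x + y + z = (x + z) + y := fun x y z => by ring
    rw [hre, ← Finset.sum_add_distrib]
    refine RegAt.add' hδ (RegAt.sum' hδ _ _ fun V hV => ?_) (RegAt.sum' hδ _ _ fun V hV => ?_)
    · obtain ⟨_, _, h3, h4, _, _⟩ := hmem V hV
      exact cc_partner Q h hh hab hv' hG.1 (F (V 0)) V h3 h4
    · exact cc_reg_lin Q h hh hab V _ (Finset.mem_filter.1 hV).2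
  · have : (NT Q h (0 : VV B → SS B Λ)) = 0 := NT_zero Q h
    rw [this]
    simpa using RegAt.zero' hδ
  · intro x y _ _ hx hy
    rw [NT_add, AddMonoidAlgebra.coeff_add, Finsupp.add_apply, Finsupp.add_apply]
    have hre : ∀ p q r s : KK B Λ, p + q + (r + s) = (p + r) + (q + s) := fun p q r s => by ring
    rw [hre]
    exact RegAt.add' hδ hx hy
  · intro c x _ hx
    rw [NT_smul, NT_smul, ← mul_add]
    exact RegAt.mul' hδ (RegAt.toK' hδ _) hx

/-- regularity at `x_a - x_b` -/
theorem reg_diag [Algebra ℚ Λ] (hh : h ≠ 0) {τ : VV B → SS B Λ} (hτ : Equ Q τ) {a b : B}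
    (hab : a ≠ b) (hv' : Q.vx a = Q.vx b) {lam : B → ℤ} (hl : lam a = lam b) :
    RegAt (X a - X b) ((NT Q h τ).coeff lam) := by
  have hδ := delta_prime (Λ := Λ) hab
  have hσ := C2.swap_mem_W Q hv'
  refine reg_of_sym hab ?_ ?_
  · rw [NT_coeff, Finset.mul_sum]
    exact RegAt.sum' hδ _ _ fun V _ => cc_simple Q h hh hab hv' V _
  · rw [← NT_inv Q h hτ hσ]
    congr 1
    funext c
    show lam ((Equiv.swap a b)⁻¹ c) = lam c
    rw [Equiv.swap_inv]
    by_cases h1 : c = a
    · subst h1; rw [Equiv.swap_apply_left, hl]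
    · by_cases h2 : c = b
      · subst h2; rw [Equiv.swap_apply_right, hl]
      · rw [Equiv.swap_apply_of_ne_of_ne h1 h2]

theorem nrm_nb {a b : B} (hab : a ≠ b) {lam : B → ℤ} (ha : lam a = 0) (hb : lam b = 0) :
    nrm (nb a b lam) = nrm lam + 2 := by
  unfold nrm nb
  have h1 : ∀ c, (lam c + ((if c = a then 1 else 0) - (if c = b then 1 else 0))) ^ 2 =
      lam c ^ 2 + ((if c = a then 1 else 0) + (if c = b then 1 else 0) : ℤ) := by
    intro c
    by_cases h1 : c = a
    · subst h1
      rw [ha, if_pos rfl, if_neg hab]; norm_num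
    · by_cases h2 : c = b
      · subst h2
        rw [hb, if_neg h1, if_pos rfl]; norm_num
      · rw [if_neg h1, if_neg h2]; norm_num
  simp_rw [h1]
  rw [Finset.sum_add_distrib, Finset.sum_add_distrib]
  simp

end

end Vale.Agent.P291.HP
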