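import Vale.Agent.P291.H125.HP5

/-!
# HP6: divisibility of the top coefficient
-/

open MvPolynomial

set_option linter.unusedSectionVars false

namespace Vale.Agent.P291.HP

noncomputable section

variable {I E B Λ : Type*} [Fintype E] [DecidableEq I] [Fintype B] [DecidableEq B] [CommRing Λ]
  [IsDomain Λ]
variable (Q : QD I E B Λ) (h : Λ)

theorem rename_HN {σ : Equiv.Perm B} (hσ : σ ∈ Q.W) (lam : B → ℤ) :
    rename σ (HN Q h lam) = HN Q h (lact σ lam) := by
  unfold HN
  rw [map_prod]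
  refine Finset.prod_equiv (wtEquiv σ) (fun p => (wtEquiv_mem Q hσ p).symm) ?_
  intro p _
  have h1 := ext_lact σ lam p.2.2
  have h2 := lact_apply σ lam p.2.1
  have e1 : (lact σ lam (wtEquiv σ p).2.1) - ext (lact σ lam) (wtEquiv σ p).2.2 =
      lam p.2.1 - ext lam p.2.2 := by
    show (lact σ lam (σ p.2.1)) - ext (lact σ lam) (p.2.2.map σ) = _
    rw [h1, h2]
  rw [map_mul, map_pow, map_pow, map_add, rename_xi, rename_C, e1]

theorem rename_HD {σ : Equiv.Perm B} (hσ : σ ∈ Q.W) (lam : B → ℤ) :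
    rename σ (HD Q h lam) = HD Q h (lact σ lam) := by
  unfold HD
  rw [map_prod]
  refine Finset.prod_equiv (Equiv.prodCongr σ σ) ?_ ?_
  · intro p
    simp [QD.Prs, (mem_W Q).1 hσ]
  · intro p _
    simp only [Equiv.prodCongr_apply, Prod.map_fst, Prod.map_snd, lact_apply, map_mul, map_pow,
      map_sub, map_add, rename_X, rename_C]

/-- common denominator -/
def DD (lam : B → ℤ) : SS B Λ :=
  ∏ p ∈ Q.Prs.filter (fun p => p.1 ≠ p.2 ∧ lam p.1 = 0 ∧ lam p.2 = 0),
    ((X p.1 - X p.2 : SS B Λ) * (X p.1 - X p.2 - C (-h)))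

theorem MD_dvd {V : VV B} (hV : Cp Q V) : MD Q h V ∣ DD Q h (lamV (V 0) + lamV (V 1)) := by
  unfold MD DD
  rw [Finset.prod_filter]
  refine Finset.prod_dvd_prod_of_dvd _ _ fun p _ => ?_
  have h1 := Cp.sum_apply Q hV p.1
  have h2 := Cp.sum_apply Q hV p.2
  rw [h1, h2]
  by_cases hp : p.1 = p.2
  · rw [if_neg, if_neg, if_neg, one_mul]
    · exact fun hh => hh.1 hp
    · rintro ⟨a1, a2, a3, a4⟩; rw [hp] at a2; exact a4 a2
    · rintro ⟨a1, a2, a3, a4⟩; rw [hp] at a1; exact a3 a1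
  · by_cases c1 : some p.1 ∈ V 0 <;> by_cases c2 : some p.1 ∈ V 1 <;>
      by_cases c3 : some p.2 ∈ V 0 <;> by_cases c4 : some p.2 ∈ V 1 <;>
        simp [c1, c2, c3, c4, hp]

theorem xi_not_dvd {δ : SS B Λ} (hδ : Prime δ) {lam : B → ℤ}
    (hd : ∀ b, lam b ≠ 0 → pderiv b δ = 0) {p : E × B × Option B}
    (ht : lam p.2.1 ≠ ext lam p.2.2) (c : Λ) : ¬ δ ∣ Q.xi p + C c := by
  unfold QD.xi
  by_cases h1 : lam p.2.1 = 0
  · rcases hp : p.2.2 with _ | s
    · rw [hp, h1] at ht; exact absurd rfl ht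
    · rw [hp, h1] at ht
      have hs : lam s ≠ 0 := Ne.symm ht
      have hne : p.2.1 ≠ s := fun e => hs (by rw [← e, h1])
      refine not_dvd_of_pderiv hδ (hd s hs) (Or.inl ?_)
      simp only [xo, Option.elim, map_add, map_sub, pderiv_X_self, pderiv_C,
        pderiv_X_of_ne hne]
      ring
  · refine not_dvd_of_pderiv hδ (hd _ h1) (Or.inr ?_)
    rcases hp : p.2.2 with _ | s
    · simp only [xo, Option.elim, map_add, map_sub, map_zero, pderiv_X_self, pderiv_C]
      ring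
    · have hne : s ≠ p.2.1 := fun e => ht (by rw [hp, ← e]; rfl)
      simp only [xo, Option.elim, map_add, map_sub, pderiv_X_self, pderiv_C,
        pderiv_X_of_ne hne]
      ring

theorem HN_not_dvd {δ : SS B Λ} (hδ : Prime δ) {lam : B → ℤ}
    (hd : ∀ b, lam b ≠ 0 → pderiv b δ = 0) : ¬ δ ∣ HN Q h lam := by
  intro h0
  unfold HN at h0
  obtain ⟨p, _, hp⟩ := (hδ.dvd_finsetProd_iff _).mp h0
  by_cases ht : lam p.2.1 = ext lam p.2.2
  · rw [ht, sub_self] at hp
    simp only [Int.toNat_zero, Nat.min_zero, pow_zero, one_mul] at hp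
    have : (0 - 1 : ℤ).toNat = 0 := rfl
    rw [this, pow_zero] at hp
    exact hδ.not_dvd_one hp
  · rcases hδ.dvd_or_dvd hp with hp | hp
    · have := xi_not_dvd Q hδ hd ht 0
      rw [C_0, add_zero] at this
      exact this (hδ.dvd_of_dvd_pow hp)
    · exact xi_not_dvd Q hδ hd ht h (hδ.dvd_of_dvd_pow hp)

theorem HN_ne_zero (lam : B → ℤ) : HN Q h lam ≠ 0 := by
  unfold HN
  rw [Finset.prod_ne_zero_iff]
  intro p _
  by_cases ht : lam p.2.1 = ext lam p.2.2
  · rw [ht, sub_self]; simp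
  · have hne : some p.2.1 ≠ p.2.2 := by
      intro e
      apply ht
      rw [← e]; rfl
    have key : ∀ c : Λ, Q.xi p + C c ≠ 0 := by
      intro c h0
      have h1 := congrArg (pderiv p.2.1) h0
      unfold QD.xi at h1
      rcases hp : p.2.2 with _ | s
      · rw [hp] at h1
        simp [xo] at h1
      · rw [hp] at h1 hne
        have hs : s ≠ p.2.1 := fun e => hne (by rw [e])
        simp [xo, pderiv_X_of_ne hs] at h1
    have k0 := key 0
    rw [C_0, add_zero] at k0
    exact mul_ne_zero (pow_ne_zero _ k0) (pow_ne_zero _ (key h))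

theorem HD_ne_zero (lam : B → ℤ) : HD Q h lam ≠ 0 := by
  unfold HD
  rw [Finset.prod_ne_zero_iff]
  intro p _
  by_cases hp : p.1 = p.2
  · rw [hp, sub_self]
    simp
  · have k1 : (X p.1 - X p.2 + C (-h) : SS B Λ) ≠ 0 := (prime_lin (Ne.symm hp) (-h)).ne_zero
    exact mul_ne_zero (pow_ne_zero _ (C1.X_sub_ne_zero hp)) (pow_ne_zero _ k1)

variable {A : (Option I → ℕ) → (Option I → ℕ) → Prop}

/-- the top coefficients are divisible -/
theorem LC_pair [Algebra ℚ Λ] (hh : h ≠ 0) {τ : VV B → SS B Λ} (hτ : τ ∈ DP Q A)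
    {lam : B → ℤ} (hmax : ∀ mu, (NT Q h τ).coeff mu ≠ 0 → nrm mu ≤ nrm lam) :
    ∃ p : SS B Λ, (NT Q h τ).coeff lam * toK (HD Q h lam) = toK (HN Q h lam * p) ∧
      Q.InvL lam p := by
  classical
  have : CharZero Λ := algebraRat.charZero Λ
  have hN0 : (toK (HN Q h lam) : KK B Λ) ≠ 0 := toK_ne_zero (HN_ne_zero Q h lam)
  -- denominators
  have hden : ∃ s : SS B Λ, (NT Q h τ).coeff lam * toK (HD Q h lam) * toK (DD Q h lam) =
      toK (HN Q h lam * s) := by
    have hV : ∀ V : VV B, ∃ s : SS B Λ, lamV (V 0) + lamV (V 1) = lam →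
        cc Q h V (τ V) * toK (HD Q h lam) * toK (DD Q h lam) = toK (HN Q h lam * s) := by
      intro V
      by_cases hs : lamV (V 0) + lamV (V 1) = lam
      · by_cases h0 : τ V = 0
        · refine ⟨0, fun _ => ?_⟩
          rw [h0, cc_zero, zero_mul, zero_mul, mul_zero]
          exact (map_zero _).symm
        · have hC := (DP_supp Q hτ h0).2
          obtain ⟨c, hc⟩ := MD_dvd Q h hC
          rw [hs] at hc
          refine ⟨MN Q h V * trA (hv h (lamV (V 0))) (τ V) * c, fun _ => ?_⟩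
          have := cc_formula Q h V (τ V)
          rw [hs] at this
          rw [hc, toK_mul, ← mul_assoc, mul_assoc (cc Q h V (τ V)), ← toK_mul, this, ← toK_mul]
          congr 1
          ring
      · exact ⟨0, fun h' => absurd h' hs⟩
    choose s hs using hV
    refine ⟨∑ V : VV B with lamV (V 0) + lamV (V 1) = lam, s V, ?_⟩
    rw [NT_coeff, Finset.sum_mul, Finset.sum_mul, Finset.mul_sum]
    have : (toK (∑ V : VV B with lamV (V 0) + lamV (V 1) = lam, HN Q h lam * s V) : KK B Λ) =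
        ∑ V : VV B with lamV (V 0) + lamV (V 1) = lam, toK (HN Q h lam * s V) := map_sum _ _ _
    rw [this]
    refine Finset.sum_congr rfl fun V hV => ?_
    exact hs V (Finset.mem_filter.1 hV).2
  obtain ⟨s, hs⟩ := hden
  set y : KK B Λ := (NT Q h τ).coeff lam * toK (HD Q h lam) * (toK (HN Q h lam))⁻¹ with hy
  have hy1 : y * toK (DD Q h lam) = toK s := by
    rw [hy, mul_right_comm, hs, toK_mul, mul_right_comm, mul_inv_cancel₀ hN0, one_mul]
  set T := Q.Prs.filter (fun p => p.1 ≠ p.2 ∧ lam p.1 = 0 ∧ lam p.2 = 0) with hT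
  have hT' : ∀ p ∈ T, Q.vx p.1 = Q.vx p.2 ∧ p.1 ≠ p.2 ∧ lam p.1 = 0 ∧ lam p.2 = 0 := by
    intro p hp
    rw [hT, Finset.mem_filter, QD.Prs, Finset.mem_filter] at hp
    exact ⟨hp.1.2, hp.2⟩
  have hreg : ∀ δ : SS B Λ, Prime δ → (∀ b, lam b ≠ 0 → pderiv b δ = 0) →
      RegAt δ ((NT Q h τ).coeff lam) → RegAt δ y := by
    intro δ hδ hd hr
    rw [hy]
    exact RegAt.mul' hδ (RegAt.mul' hδ hr (RegAt.toK' hδ _))
      (RegAt.inv' (HN_not_dvd Q h hδ hd))
  have hpoly : ∃ p : SS B Λ, y = toK p := by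
    refine C1.poly_of_reg_list ((T.toList.map fun p => (X p.1 - X p.2 : SS B Λ)) ++
      (T.toList.map fun p => (X p.1 - X p.2 - C (-h) : SS B Λ))) y s ?_ ?_
    · intro δ hδ
      rw [List.mem_append, List.mem_map, List.mem_map] at hδ
      rcases hδ with ⟨p, hp, rfl⟩ | ⟨p, hp, rfl⟩
      · obtain ⟨h1, h2, h3, h4⟩ := hT' p (Finset.mem_toList.1 hp)
        have hδ := delta_prime (Λ := Λ) h2
        refine ⟨hδ, hreg _ hδ ?_ (reg_diag Q h hh (DP_equ Q hτ) h2 h1 (by rw [h3, h4]))⟩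
        intro b hb
        have b1 : p.1 ≠ b := fun e => hb (by rw [← e, h3])
        have b2 : p.2 ≠ b := fun e => hb (by rw [← e, h4])
        rw [map_sub, pderiv_X_of_ne b1, pderiv_X_of_ne b2, sub_zero]
      · obtain ⟨h1, h2, h3, h4⟩ := hT' p (Finset.mem_toList.1 hp)
        have e1 : (X p.1 - X p.2 - C (-h) : SS B Λ) = X p.1 - X p.2 + C h := by
          rw [map_neg]; ring
        rw [e1]
        have hδ := prime_lin (Λ := Λ) (Ne.symm h2) h
        refine ⟨hδ, hreg _ hδ ?_ ?_⟩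
        · intro b hb
          have b1 : p.1 ≠ b := fun e => hb (by rw [← e, h3])
          have b2 : p.2 ≠ b := fun e => hb (by rw [← e, h4])
          rw [map_add, map_sub, pderiv_X_of_ne b1, pderiv_X_of_ne b2, pderiv_C, sub_zero, zero_add]
        · have := reg_pair Q h hh hτ (Ne.symm h2) h1.symm h4 h3
          have hz : (NT Q h τ).coeff (nb p.2 p.1 lam) = 0 := by
            by_contra hne
            have := hmax _ hne
            rw [nrm_nb (Ne.symm h2) h4 h3] at this
            omega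
          rwa [hz, add_zero] at this
    · rw [List.prod_append, Finset.prod_map_toList, Finset.prod_map_toList,
        ← Finset.prod_mul_distrib]
      exact hy1
  obtain ⟨p, hp⟩ := hpoly
  have hmain : (NT Q h τ).coeff lam * toK (HD Q h lam) = toK (HN Q h lam * p) := by
    rw [toK_mul, ← hp, hy, mul_comm (toK (HN Q h lam)), inv_mul_cancel_right₀ hN0]
  refine ⟨p, hmain, ?_⟩
  intro σ hσ hl
  have h1 := congrArg (act σ) hmain
  rw [map_mul, act_toK, act_toK, map_mul, rename_HD Q h hσ, rename_HN Q h hσ, hl,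
    ← NT_inv Q h (DP_equ Q hτ) hσ, hl, hmain] at h1
  have h2 := C1.toK_inj h1
  exact (mul_left_cancel₀ (HN_ne_zero Q h lam) h2).symm

end

end Vale.Agent.P291.HP
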