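import Vale.Agent.P291.H125.HP6
import Vale.Agent.P291.NBlk
import Vale.Agent.P291.SBlk
import Vale.Agent.P291.H906.Pairs

/-!
# HP7: existence of sums of pairs with given top coefficient
-/

open MvPolynomial

set_option linter.unusedSectionVars false

namespace Vale.Agent.P291.HP

noncomputable section

variable {I E B Λ : Type*} [Fintype E] [DecidableEq I] [Fintype B] [DecidableEq B] [CommRing Λ]
  [IsDomain Λ]
variable (Q : QD I E B Λ) (h : Λ)

/-- Moving the members of a decreasing chain separately by elements of `W` does not increase the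
norm; equality only if they are moved simultaneously. -/
theorem norm_le_chain {n : ℕ} (U V : Fin n → Finset (Option B)) (hU : ∀ i j, i ≤ j → U j ⊆ U i)
    (hV : ∀ j, Q.orb (U j) (V j)) :
    nrm (∑ j, lamV (V j)) ≤ nrm (∑ j, lamV (U j)) ∧
      (nrm (∑ j, lamV (V j)) = nrm (∑ j, lamV (U j)) →
        ∃ σ ∈ Q.W, (∀ j, V j = vact σ (U j)) ∧
          ∑ j, lamV (V j) = lact σ (∑ j, lamV (U j))) := by
  classical
  choose τ hτW hτ using hV
  have hnone : ∀ j, (none ∈ V j ↔ none ∈ U j) := fun j => by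
    rw [← hτ j]; exact NB.none_mem_vact _ _
  have hq : NB.qn V = NB.qn U := by
    unfold NB.qn
    exact Finset.sum_congr rfl fun j _ => by simp only [hnone j]
  have hchain : ∀ i j, i ≤ j → NB.body (U j) ⊆ NB.body (U i) := by
    intro i j hij b hb
    rw [NB.mem_body] at hb ⊢
    exact hU i j hij hb
  have hc : ∀ j i, ((NB.body (V j)).filter fun b => Q.vx b = i).card =
      ((NB.body (U j)).filter fun b => Q.vx b = i).card := by
    intro j i
    symm
    apply Finset.card_bij (fun b _ => τ j b)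
    · intro b hb
      rw [Finset.mem_filter, NB.mem_body] at hb ⊢
      refine ⟨?_, (hτW j b).trans hb.2⟩
      rw [← hτ j, NB.some_mem_vact]
      simpa using hb.1
    · intro a _ b _ h
      exact (τ j).injective h
    · intro b hb
      rw [Finset.mem_filter, NB.mem_body] at hb
      refine ⟨(τ j)⁻¹ b, ?_, by simp⟩
      rw [Finset.mem_filter, NB.mem_body]
      constructor
      · have := hb.1
        rw [← hτ j, NB.some_mem_vact] at this
        exact this
      · have h5 : τ j ((τ j)⁻¹ b) = b := by simp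
        have := hτW j ((τ j)⁻¹ b)
        rw [h5] at this
        rw [← this]; exact hb.2
  have hc' : ∀ j, (NB.body (V j)).card = (NB.body (U j)).card := by
    intro j
    rw [Finset.card_eq_sum_card_fiberwise (f := Q.vx) (t := Finset.univ.image Q.vx)
      (s := NB.body (V j)) (fun b _ => by simp),
      Finset.card_eq_sum_card_fiberwise (f := Q.vx) (t := Finset.univ.image Q.vx)
      (s := NB.body (U j)) (fun b _ => by simp)]
    exact Finset.sum_congr rfl fun i _ => hc j i
  have hlin : ∑ b, NB.cnt V b = ∑ b, NB.cnt U b := by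
    rw [NB.sum_cnt, NB.sum_cnt]
    exact Finset.sum_congr rfl fun j _ => by rw [hc' j]
  obtain ⟨h1, h2⟩ := NB.sq_le (fun j => NB.body (U j)) (fun j => NB.body (V j)) hchain hc'
  rw [NB.nrm_eq V, NB.nrm_eq U, hq, hlin]
  refine ⟨?_, ?_⟩
  · have := NB.sum_cnt_sq V
    have := NB.sum_cnt_sq U
    linarith
  · intro heq
    have h3 : ∀ i j, i ≤ j → NB.body (V j) ⊆ NB.body (V i) := by
      apply h2
      have := NB.sum_cnt_sq V
      have := NB.sum_cnt_sq U
      linarith
    obtain ⟨σ, hσ, hσ'⟩ := NB.exists_perm Q.vx (fun j => NB.body (U j)) (fun j => NB.body (V j))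
      hchain h3 hc
    have hmem : ∀ j b, (some b ∈ V j ↔ some (σ⁻¹ b) ∈ U j) := by
      intro j b
      have := hσ' j (σ⁻¹ b)
      have h5 : σ (σ⁻¹ b) = b := by simp
      rw [h5] at this
      simpa only [NB.mem_body] using this
    have hVU : ∀ j, V j = vact σ (U j) := by
      intro j
      ext o
      cases o with
      | none => rw [NB.none_mem_vact, hnone j]
      | some b => rw [NB.some_mem_vact, hmem j b]
    refine ⟨σ, hσ, hVU, ?_⟩
    funext b
    show (∑ j, lamV (V j)) b = (∑ j, lamV (U j)) (σ⁻¹ b)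
    rw [NB.sum_lamV_apply, NB.sum_lamV_apply, hq]
    congr 1
    unfold NB.cnt
    exact Finset.sum_congr rfl fun j _ => by simp only [hmem j b]

/-- nested pairs -/
def Ne2 (V : VV B) : Prop := V 1 ⊆ V 0 ∨ V 0 ⊆ V 1

/-- swapping a pair -/
def sw (V : VV B) : VV B := ![V 1, V 0]

theorem sw_zero (V : VV B) : sw V 0 = V 1 := rfl
theorem sw_one (V : VV B) : sw V 1 = V 0 := rfl
theorem sw_sw (V : VV B) : sw (sw V) = V := by
  funext j; fin_cases j <;> rfl

theorem norm_pair {V : VV B} (hV : Ne2 V) (W : VV B) (hW : ∀ j, Q.orb (V j) (W j)) :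
    nrm (lamV (W 0) + lamV (W 1)) ≤ nrm (lamV (V 0) + lamV (V 1)) ∧
      (nrm (lamV (W 0) + lamV (W 1)) = nrm (lamV (V 0) + lamV (V 1)) →
        ∃ σ ∈ Q.W, (∀ j, W j = vact σ (V j)) ∧
          lamV (W 0) + lamV (W 1) = lact σ (lamV (V 0) + lamV (V 1))) := by
  rcases hV with hV | hV
  · have := norm_le_chain Q V W (by
      intro i j hij
      fin_cases i <;> fin_cases j
      · exact subset_rfl
      · exact hV
      · exact absurd hij (by decide)
      · exact subset_rfl) hW
    simpa only [Fin.sum_univ_two] using this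
  · have := norm_le_chain Q (sw V) (sw W) (by
      intro i j hij
      fin_cases i <;> fin_cases j
      · exact subset_rfl
      · exact hV
      · exact absurd hij (by decide)
      · exact subset_rfl) (by
      intro j
      fin_cases j
      · exact hW 1
      · exact hW 0)
    simp only [Fin.sum_univ_two, sw_zero, sw_one] at this
    rw [add_comm (lamV (W 1)), add_comm (lamV (V 1))] at this
    refine ⟨this.1, fun h' => ?_⟩
    obtain ⟨σ, hσ, h1, h2⟩ := this.2 h'
    refine ⟨σ, hσ, ?_, h2⟩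
    intro j
    fin_cases j
    · exact h1 1
    · exact h1 0

/-- span of the products of two dressings with given dimension vectors -/
def DQ (a b : Option I → ℕ) : Submodule Λ (VV B → SS B Λ) :=
  Submodule.span Λ {τ | ∃ F ∈ Q.EqvD a, ∃ G ∈ Q.EqvD b, τ = fun V => F (V 0) * G (V 1)}

theorem DQ_le_DP {A : (Option I → ℕ) → (Option I → ℕ) → Prop} {a b : Option I → ℕ}
    (hA : A a b) (hab : a + b = Q.dm Finset.univ) : DQ Q a b ≤ DP Q A := by
  refine Submodule.span_mono ?_
  rintro τ ⟨F, hF, G, hG, rfl⟩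
  exact ⟨a, b, hA, hab, F, hF, G, hG, rfl⟩

theorem Dec_chi {τ : VV B → SS B Λ} (hτ : τ ∈ Q.Dec 2) (a b : Option I → ℕ) :
    (fun V : VV B => I1.chi Q a (V 0) * I1.chi Q b (V 1) * τ V) ∈ DQ Q a b := by
  induction hτ using Submodule.span_induction with
  | mem x hx =>
    obtain ⟨r, hr, F, hF, rfl⟩ := hx
    refine Submodule.subset_span ⟨I1.chi Q a * ((fun _ => r) * F 0), I1.chi_mul_mem Q a
      (mul_mem (I1.cR_mem Q hr) (hF 0)), I1.chi Q b * F 1, I1.chi_mul_mem Q b (hF 1), ?_⟩
    funext V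
    simp only [Pi.mul_apply, Fin.prod_univ_two]
    ring
  | zero =>
    have : (fun V : VV B => I1.chi Q a (V 0) * I1.chi Q b (V 1) * (0 : VV B → SS B Λ) V) = 0 := by
      funext V; simp
    rw [this]; exact zero_mem _
  | add x y _ _ hx hy =>
    have : (fun V : VV B => I1.chi Q a (V 0) * I1.chi Q b (V 1) * (x + y) V) =
        (fun V : VV B => I1.chi Q a (V 0) * I1.chi Q b (V 1) * x V) +
          fun V : VV B => I1.chi Q a (V 0) * I1.chi Q b (V 1) * y V := by
      funext V; simp [mul_add]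
    rw [this]; exact add_mem hx hy
  | smul c x _ hx =>
    have : (fun V : VV B => I1.chi Q a (V 0) * I1.chi Q b (V 1) * (c • x) V) =
        c • fun V : VV B => I1.chi Q a (V 0) * I1.chi Q b (V 1) * x V := by
      funext V; simp
    rw [this]; exact Submodule.smul_mem _ _ hx

theorem DQ_sw {τ : VV B → SS B Λ} {a b : Option I → ℕ} (hτ : τ ∈ DQ Q a b) :
    (fun V : VV B => τ (sw V)) ∈ DQ Q b a := by
  induction hτ using Submodule.span_induction with
  | mem x hx =>
    obtain ⟨F, hF, G, hG, rfl⟩ := hx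
    refine Submodule.subset_span ⟨G, hG, F, hF, ?_⟩
    funext V
    simp only [sw_zero, sw_one]
    exact mul_comm _ _
  | zero => exact zero_mem _
  | add x y _ _ hx hy => exact add_mem hx hy
  | smul c x _ hx => exact Submodule.smul_mem _ c hx

theorem surj_chain2 [Algebra ℚ Λ] {V : VV B} (hV : V 1 ⊆ V 0) (f : SS B Λ)
    (hf : ∀ σ ∈ Q.W, (∀ j, vact σ (V j) = V j) → rename σ f = f) :
    ∃ τ ∈ DQ Q (Q.dm (V 0)) (Q.dm (V 1)), τ V = f ∧ Q.SuppOn V τ := by
  classical
  obtain ⟨τ, hτ, h1, h2⟩ := surj_chain Q 2 V (by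
      intro i j hij
      fin_cases i <;> fin_cases j
      · exact subset_rfl
      · exact hV
      · exact absurd hij (by decide)
      · exact subset_rfl) f hf
  refine ⟨_, Dec_chi Q hτ (Q.dm (V 0)) (Q.dm (V 1)), ?_, ?_⟩
  · have c0 : I1.chi Q (Q.dm (V 0)) (V 0) = (1 : SS B Λ) := if_pos rfl
    have c1 : I1.chi Q (Q.dm (V 1)) (V 1) = (1 : SS B Λ) := if_pos rfl
    rw [c0, c1, h1, one_mul, one_mul]
  · intro W hW j
    exact h2 W (right_ne_zero_of_mul hW) j

theorem surj_pair [Algebra ℚ Λ] {V : VV B} (hV : Ne2 V) (f : SS B Λ)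
    (hf : ∀ σ ∈ Q.W, (∀ j, vact σ (V j) = V j) → rename σ f = f) :
    ∃ τ ∈ DQ Q (Q.dm (V 0)) (Q.dm (V 1)), τ V = f ∧ Q.SuppOn V τ := by
  rcases hV with hV | hV
  · exact surj_chain2 Q hV f hf
  · obtain ⟨τ, hτ, h1, h2⟩ := surj_chain2 Q (V := sw V) hV f (by
      intro σ hσ hj
      apply hf σ hσ
      intro j
      fin_cases j
      · exact hj 1
      · exact hj 0)
    refine ⟨fun W => τ (sw W), DQ_sw Q hτ, ?_, ?_⟩
    · exact h1
    · intro W hW j
      have := h2 (sw W) hW
      fin_cases j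
      · exact this 1
      · exact this 0

theorem MN_nested {V : VV B} (hV : Ne2 V) : MN Q h V = 1 := by
  unfold MN
  refine Finset.prod_eq_one fun p _ => ?_
  rcases hV with hV | hV
  · rw [if_neg, if_neg, one_mul]
    · rintro ⟨h1, h2, _, _⟩; exact h1 (hV h2)
    · rintro ⟨_, _, h3, h4⟩; exact h3 (hV h4)
  · rw [if_neg, if_neg, one_mul]
    · rintro ⟨_, _, h3, h4⟩; exact h4 (hV h3)
    · rintro ⟨h1, h2, _, _⟩; exact h2 (hV h1)

theorem MD_nested {V : VV B} (hV : Ne2 V) : MD Q h V = 1 := by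
  unfold MD
  refine Finset.prod_eq_one fun p _ => ?_
  rcases hV with hV | hV
  · rw [if_neg, if_neg, one_mul]
    · rintro ⟨h1, h2, _, _⟩; exact h1 (hV h2)
    · rintro ⟨_, _, h3, h4⟩; exact h3 (hV h4)
  · rw [if_neg, if_neg, one_mul]
    · rintro ⟨_, _, h3, h4⟩; exact h4 (hV h3)
    · rintro ⟨h1, h2, _, _⟩; exact h2 (hV h1)

theorem rename_trA_hv {σ : Equiv.Perm B} {lam : B → ℤ} (hl : lact σ lam = lam) (f : SS B Λ) :
    rename σ (trA (-(hv h lam)) f) = trA (-(hv h lam)) (rename σ f) := by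
  rw [rename_trA]
  have : (fun b => (-(hv h lam)) (σ⁻¹ b)) = -(hv h lam) := by
    funext b
    have h1 : lam (σ⁻¹ b) = lam b := congrFun hl b
    simp only [Pi.neg_apply, hv, h1]
  rw [this]

/-- sums of pairs with given top coefficient, for a nested pair determined by its sum -/
theorem exists_pair [Algebra ℚ Λ] {V : VV B} (hV : Ne2 V)
    (hdet : ∀ σ ∈ Q.W, lact σ (lamV (V 0) + lamV (V 1)) = lamV (V 0) + lamV (V 1) →
      ∀ j, vact σ (V j) = V j)
    {p : SS B Λ} (hp : Q.InvL (lamV (V 0) + lamV (V 1)) p) :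
    ∃ τ ∈ DQ Q (Q.dm (V 0)) (Q.dm (V 1)),
      (NT Q h τ).coeff (lamV (V 0) + lamV (V 1)) * toK (HD Q h (lamV (V 0) + lamV (V 1))) =
        toK (HN Q h (lamV (V 0) + lamV (V 1)) * p) ∧
      ∀ mu, (NT Q h τ).coeff mu ≠ 0 → nrm mu ≤ nrm (lamV (V 0) + lamV (V 1)) ∧
        (nrm mu = nrm (lamV (V 0) + lamV (V 1)) →
          ∃ σ ∈ Q.W, mu = lact σ (lamV (V 0) + lamV (V 1))) := by
  classical
  obtain ⟨τ, hτ, h1, h2⟩ := surj_pair Q hV (trA (-(hv h (lamV (V 0)))) p) (by
    intro σ hσ hj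
    have e0 : lact σ (lamV (V 0)) = lamV (V 0) := by rw [← lamV_vact, hj 0]
    have e1 : lact σ (lamV (V 1)) = lamV (V 1) := by rw [← lamV_vact, hj 1]
    have e2 : lact σ (lamV (V 0) + lamV (V 1)) = lamV (V 0) + lamV (V 1) := by
      have : lact σ (lamV (V 0) + lamV (V 1)) = lact σ (lamV (V 0)) + lact σ (lamV (V 1)) := rfl
      rw [this, e0, e1]
    rw [rename_trA_hv h e0, hp σ hσ e2])
  refine ⟨τ, hτ, ?_, ?_⟩
  · have hone : (NT Q h τ).coeff (lamV (V 0) + lamV (V 1)) = cc Q h V (τ V) := by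
      rw [NT_coeff]
      refine Finset.sum_eq_single V ?_ ?_
      · intro W hW hne
        by_contra h0
        have hW1 := (Finset.mem_filter.1 hW).2
        have h3 : τ W ≠ 0 := fun h4 => h0 (by rw [h4, cc_zero])
        obtain ⟨σ, hσ, h4, h5⟩ := (norm_pair Q hV W (h2 W h3)).2 (by rw [hW1])
        rw [hW1] at h5
        have h6 := hdet σ hσ h5.symm
        exact hne (funext fun j => (h4 j).trans (h6 j))
      · intro hn
        exact (hn (Finset.mem_filter.2 ⟨Finset.mem_univ _, rfl⟩)).elim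
    have h3 := cc_formula Q h V (τ V)
    rw [MD_nested Q h hV, MN_nested Q h hV, mul_one, mul_one, h1, trA_trA_neg] at h3
    rw [hone, h1]
    exact h3
  · intro mu hmu
    rw [NT_coeff] at hmu
    obtain ⟨W, hW, hW'⟩ := Finset.exists_ne_zero_of_sum_ne_zero hmu
    have hW1 := (Finset.mem_filter.1 hW).2
    have h3 : τ W ≠ 0 := fun h4 => hW' (by rw [h4, cc_zero])
    have h4 := norm_pair Q hV W (h2 W h3)
    rw [hW1] at h4
    refine ⟨h4.1, fun h5 => ?_⟩
    obtain ⟨σ, hσ, _, h6⟩ := h4.2 h5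
    exact ⟨σ, hσ, h6⟩

end

end Vale.Agent.P291.HP
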