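import Vale.Agent.P291.H125.HP7

/-!
# HP8: the top pair of a cocharacter
-/

open MvPolynomial

set_option linter.unusedSectionVars false

namespace Vale.Agent.P291.HP

noncomputable section

open H906 (cv full Nt)

variable {I E B Λ : Type*} [Fintype E] [DecidableEq I] [Fintype B] [DecidableEq B] [CommRing Λ]
  [IsDomain Λ]
variable (Q : QD I E B Λ) (h : Λ) (ν : I → ℤ)

/-- the `ν`-charge of a dimension vector -/
def nuc (a : Option I → ℕ) : ℤ := ∑ i ∈ Finset.univ.image Q.vx, ν i * cv Q a i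

theorem nuc_dm (V : Finset (Option B)) : nuc Q ν (Q.dm V) = ∑ b, ν (Q.vx b) * lamV V b := by
  classical
  unfold nuc
  rw [← Finset.sum_fiberwise_of_maps_to (s := Finset.univ) (t := Finset.univ.image Q.vx)
    (g := Q.vx) (fun b _ => Finset.mem_image_of_mem _ (Finset.mem_univ b))]
  refine Finset.sum_congr rfl fun i _ => ?_
  rw [← H906.chg_lamV, QD.chg, Finset.mul_sum]
  refine Finset.sum_congr rfl fun b hb => ?_
  rw [(Finset.mem_filter.1 hb).2]

/-- allowed pairs of dimension vectors -/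
def Al (a _b : Option I → ℕ) : Prop := Nt (full Q) a ∧ nuc Q ν a < 0

theorem Nt_dm {V : Finset (Option B)} (h0 : V ≠ ∅) (h1 : V ≠ Finset.univ) :
    Nt (full Q) (Q.dm V) :=
  ⟨fun h => h0 (H906.dm_eq_zero Q h), fun h => h1 (H906.dm_eq_full Q h), H906.dm_le_full Q V⟩

theorem Cp_chg {V : VV B} (hV : Cp Q V) (i : I) : Q.chg i (lamV (V 0) + lamV (V 1)) = 0 := by
  rw [H906.chg_add', H906.chg_lamV, H906.chg_lamV]
  unfold cv
  have h1 : Q.dm (V 0) none + Q.dm (V 1) none = 1 := by
    have := congrFun hV none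
    rw [Pi.add_apply] at this
    rw [this]; exact H906.full_none Q
  have h2 : Q.dm (V 0) (some i) + Q.dm (V 1) (some i) = full Q (some i) := congrFun hV (some i)
  have h3 : (Q.dm (V 0) (some i) : ℤ) + Q.dm (V 1) (some i) = full Q (some i) := by
    exact_mod_cast h2
  have h4 : (Q.dm (V 0) none : ℤ) + Q.dm (V 1) none = 1 := by exact_mod_cast h1
  have h5 : (Q.dm (V 1) none : ℤ) = 1 - Q.dm (V 0) none := by linarith
  rw [← h3, h5]
  ring

/-- positive boxes -/
def Pp (lam : B → ℤ) : Finset (Option B) := Finset.univ.filter fun o => 0 < ext lam o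

/-- nonnegative boxes -/
def Pn (lam : B → ℤ) : Finset (Option B) := Finset.univ.filter fun o => 0 ≤ ext lam o

theorem mem_Pp (lam : B → ℤ) (o : Option B) : o ∈ Pp lam ↔ 0 < ext lam o := by simp [Pp]

theorem mem_Pn (lam : B → ℤ) (o : Option B) : o ∈ Pn lam ↔ 0 ≤ ext lam o := by simp [Pn]

theorem Pp_sub (lam : B → ℤ) : Pp lam ⊆ Pn lam := by
  intro o ho
  rw [mem_Pp] at ho
  rw [mem_Pn]
  exact ho.le

theorem lamV_Pp (lam : B → ℤ) (b : B) : lamV (Pp lam) b = if 0 < lam b then 1 else 0 := by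
  rw [lamV_apply]
  simp only [mem_Pp, ext, Option.elim, lt_irrefl, if_false, sub_zero]

theorem lamV_Pn (lam : B → ℤ) (b : B) : lamV (Pn lam) b = if 0 ≤ lam b then 0 else -1 := by
  rw [lamV_apply]
  simp only [mem_Pn, ext, Option.elim, le_refl, if_true]
  split_ifs <;> norm_num

theorem sum_top {lam : B → ℤ} (h1 : ∀ b, lam b = -1 ∨ lam b = 0 ∨ lam b = 1) :
    lamV (Pp lam) + lamV (Pn lam) = lam := by
  funext b
  rw [Pi.add_apply, lamV_Pp, lamV_Pn]
  rcases h1 b with h | h | h <;> rw [h] <;> norm_num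

theorem vact_Pp {σ : Equiv.Perm B} {lam : B → ℤ} (hl : lact σ lam = lam) :
    vact σ (Pp lam) = Pp lam := by
  ext o
  cases o with
  | none => rw [NB.none_mem_vact]
  | some b =>
    rw [NB.some_mem_vact, mem_Pp, mem_Pp]
    have h1 : lam (σ⁻¹ b) = lam b := congrFun hl b
    simp only [ext, Option.elim, h1]

theorem vact_Pn {σ : Equiv.Perm B} {lam : B → ℤ} (hl : lact σ lam = lam) :
    vact σ (Pn lam) = Pn lam := by
  ext o
  cases o with
  | none => rw [NB.none_mem_vact]
  | some b =>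
    rw [NB.some_mem_vact, mem_Pn, mem_Pn]
    have h1 : lam (σ⁻¹ b) = lam b := congrFun hl b
    simp only [ext, Option.elim, h1]

/-- existence of sums of allowed pairs with given top coefficient -/
theorem exists_top [Algebra ℚ Λ] (hν : ∀ U : Finset B, U.Nonempty → ∑ b ∈ U, ν (Q.vx b) ≠ 0)
    {lam : B → ℤ} (h1 : ∀ b, lam b = -1 ∨ lam b = 0 ∨ lam b = 1)
    (h2 : ∀ i, Q.chg i lam = 0) (h0 : lam ≠ 0) {p : SS B Λ} (hp : Q.InvL lam p) :
    ∃ τ ∈ DP Q (Al Q ν),
      (NT Q h τ).coeff lam * toK (HD Q h lam) = toK (HN Q h lam * p) ∧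
      ∀ mu, (NT Q h τ).coeff mu ≠ 0 → nrm mu ≤ nrm lam ∧
        (nrm mu = nrm lam → ∃ σ ∈ Q.W, mu = lact σ lam) := by
  classical
  -- positive and negative parts
  have hbal : ∑ b, ν (Q.vx b) * lam b = 0 := by
    rw [← Finset.sum_fiberwise_of_maps_to (s := Finset.univ) (t := Finset.univ.image Q.vx)
      (g := Q.vx) (fun b _ => Finset.mem_image_of_mem _ (Finset.mem_univ b))]
    refine Finset.sum_eq_zero fun i _ => ?_
    have : ∑ b ∈ Finset.univ.filter (fun b => Q.vx b = i), ν (Q.vx b) * lam b =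
        ν i * Q.chg i lam := by
      rw [QD.chg, Finset.mul_sum]
      refine Finset.sum_congr rfl fun b hb => ?_
      rw [(Finset.mem_filter.1 hb).2]
    rw [this, h2, mul_zero]
  have hpos : ∃ b, 0 < lam b := by
    by_contra hcon
    push Not at hcon
    apply h0
    funext b
    have h3 := h2 (Q.vx b)
    unfold QD.chg at h3
    have h4 := (Finset.sum_eq_zero_iff_of_nonpos (fun b' _ => hcon b')).1 h3 b
      (Finset.mem_filter.2 ⟨Finset.mem_univ _, rfl⟩)
    exact h4
  have hneg : ∃ b, lam b < 0 := by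
    by_contra hcon
    push Not at hcon
    apply h0
    funext b
    have h3 := h2 (Q.vx b)
    unfold QD.chg at h3
    have h4 := (Finset.sum_eq_zero_iff_of_nonneg (fun b' _ => hcon b')).1 h3 b
      (Finset.mem_filter.2 ⟨Finset.mem_univ _, rfl⟩)
    exact h4
  obtain ⟨bp, hbp⟩ := hpos
  obtain ⟨bn, hbn⟩ := hneg
  set s : ℤ := ∑ b ∈ Finset.univ.filter (fun b => 0 < lam b), ν (Q.vx b) with hs
  have hs0 : s ≠ 0 := hν _ ⟨bp, Finset.mem_filter.2 ⟨Finset.mem_univ _, hbp⟩⟩
  have hnp : nuc Q ν (Q.dm (Pp lam)) = s := by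
    rw [nuc_dm, hs, Finset.sum_filter]
    refine Finset.sum_congr rfl fun b _ => ?_
    rw [lamV_Pp]
    split_ifs <;> simp
  have hnn : nuc Q ν (Q.dm (Pn lam)) = -s := by
    have h3 : nuc Q ν (Q.dm (Pp lam)) + nuc Q ν (Q.dm (Pn lam)) = 0 := by
      rw [nuc_dm, nuc_dm, ← Finset.sum_add_distrib, ← hbal]
      refine Finset.sum_congr rfl fun b _ => ?_
      rw [← mul_add]
      congr 1
      exact congrFun (sum_top h1) b
    rw [hnp] at h3
    linarith
  have Np : Nt (full Q) (Q.dm (Pp lam)) := by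
    refine Nt_dm Q ?_ ?_
    · intro h3
      have : some bp ∈ Pp lam := (mem_Pp lam _).2 hbp
      rw [h3] at this
      exact absurd this (Finset.notMem_empty _)
    · intro h3
      have : some bn ∈ Pp lam := by rw [h3]; exact Finset.mem_univ _
      rw [mem_Pp] at this
      have h4 : 0 < lam bn := this
      linarith
  have Nn : Nt (full Q) (Q.dm (Pn lam)) := by
    refine Nt_dm Q ?_ ?_
    · intro h3
      have : none ∈ Pn lam := (mem_Pn lam _).2 le_rfl
      rw [h3] at this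
      exact absurd this (Finset.notMem_empty _)
    · intro h3
      have : some bn ∈ Pn lam := by rw [h3]; exact Finset.mem_univ _
      rw [mem_Pn] at this
      have h4 : 0 ≤ lam bn := this
      linarith
  have hfull : Q.dm (Pp lam) + Q.dm (Pn lam) = Q.dm Finset.univ := by
    refine H906.cv_add Q Np Nn fun i => ?_
    rw [← H906.chg_lamV, ← H906.chg_lamV, ← H906.chg_add', sum_top h1, h2]
  rcases lt_or_gt_of_ne hs0 with hlt | hgt
  · set V : VV B := ![Pp lam, Pn lam] with hV
    have v0 : V 0 = Pp lam := rfl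
    have v1 : V 1 = Pn lam := rfl
    have hsum : lamV (V 0) + lamV (V 1) = lam := by rw [v0, v1]; exact sum_top h1
    obtain ⟨τ, hτ, h3, h4⟩ := exists_pair Q h (V := V) (Or.inr (Pp_sub lam)) (by
      intro σ _ hl j
      rw [hsum] at hl
      fin_cases j
      · exact vact_Pp hl
      · exact vact_Pn hl) (p := p) (by rw [hsum]; exact hp)
    rw [hsum] at h3 h4
    refine ⟨τ, DQ_le_DP Q ⟨Np, ?_⟩ hfull hτ, h3, h4⟩
    rw [hnp]; exact hlt
  · set V : VV B := ![Pn lam, Pp lam] with hV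
    have v0 : V 0 = Pn lam := rfl
    have v1 : V 1 = Pp lam := rfl
    have hsum : lamV (V 0) + lamV (V 1) = lam := by rw [v0, v1, add_comm]; exact sum_top h1
    obtain ⟨τ, hτ, h3, h4⟩ := exists_pair Q h (V := V) (Or.inl (Pp_sub lam)) (by
      intro σ _ hl j
      rw [hsum] at hl
      fin_cases j
      · exact vact_Pn hl
      · exact vact_Pp hl) (p := p) (by rw [hsum]; exact hp)
    rw [hsum] at h3 h4
    refine ⟨τ, DQ_le_DP Q ⟨Nn, ?_⟩ ?_ hτ, h3, h4⟩
    · rw [v1, add_comm]; exact hfull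
    · show nuc Q ν (Q.dm (Pn lam)) < 0
      rw [hnn]; linarith

end

end Vale.Agent.P291.HP
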