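import Vale.Agent.P291.H125.HP8
import Vale.Agent.P291.H125.SpLift

/-!
# HP9: the graph of the specialisation `h = 0`
-/

open MvPolynomial

set_option linter.unusedSectionVars false

namespace Vale.Agent.P291.HP

noncomputable section

open H906 (cv full Nt)
open H125 (Rel)

variable {I E B Λ Λ' : Type*} [Fintype E] [DecidableEq I] [Fintype B] [DecidableEq B]
  [CommRing Λ] [IsDomain Λ] [CommRing Λ'] [IsDomain Λ']

theorem toK_add (f g : SS B Λ) : (toK (f + g) : KK B Λ) = toK f + toK g := map_add _ _ _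

theorem toK_neg (f : SS B Λ) : (toK (-f) : KK B Λ) = -toK f := map_neg _ _

theorem toK_zero : (toK (0 : SS B Λ) : KK B Λ) = 0 := map_zero _

/-- the graph of the specialisation, on the local ring -/
def Gq (B : Type*) [Fintype B] [DecidableEq B] (φ : Λ' →+* Λ) :
    Subring (KK B Λ' × KK B Λ) where
  carrier := {y | ∃ p q : SS B Λ', map φ q ≠ 0 ∧ y.1 * toK q = toK p ∧
    y.2 * toK (map φ q) = toK (map φ p)}
  zero_mem' := ⟨0, 1, by simp, by simp, by simp⟩
  one_mem' := ⟨1, 1, by simp, by simp, by simp⟩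
  add_mem' := by
    rintro x y ⟨p, q, h0, h1, h2⟩ ⟨p', q', h0', h1', h2'⟩
    refine ⟨p * q' + p' * q, q * q', ?_, ?_, ?_⟩
    · rw [map_mul]; exact mul_ne_zero h0 h0'
    · rw [Prod.fst_add, toK_mul, toK_add, toK_mul, toK_mul, ← h1, ← h1']; ring
    · rw [Prod.snd_add, map_mul, map_add, map_mul, map_mul, toK_mul, toK_add, toK_mul, toK_mul,
        ← h2, ← h2']; ring
  mul_mem' := by
    rintro x y ⟨p, q, h0, h1, h2⟩ ⟨p', q', h0', h1', h2'⟩
    refine ⟨p * p', q * q', ?_, ?_, ?_⟩
    · rw [map_mul]; exact mul_ne_zero h0 h0'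
    · rw [Prod.fst_mul, toK_mul, toK_mul, ← h1, ← h1']; ring
    · rw [Prod.snd_mul, map_mul, map_mul, toK_mul, toK_mul, ← h2, ← h2']; ring
  neg_mem' := by
    rintro x ⟨p, q, h0, h1, h2⟩
    refine ⟨-p, q, h0, ?_, ?_⟩
    · rw [Prod.fst_neg, toK_neg, ← h1]; ring
    · rw [Prod.snd_neg, map_neg, toK_neg, ← h2]; ring

variable {φ : Λ' →+* Λ}

theorem Gq_toK (f : SS B Λ') : ((toK f, toK (map φ f)) : KK B Λ' × KK B Λ) ∈ Gq B φ :=
  ⟨f, 1, by simp, by simp, by simp⟩

theorem Gq_div {f g : SS B Λ'} (hg : map φ g ≠ 0) :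
    ((toK f / toK g, toK (map φ f) / toK (map φ g)) : KK B Λ' × KK B Λ) ∈ Gq B φ := by
  have hg' : g ≠ 0 := fun h => hg (by rw [h, map_zero])
  refine ⟨f, g, hg, ?_, ?_⟩
  · exact div_mul_cancel₀ _ (toK_ne_zero hg')
  · exact div_mul_cancel₀ _ (toK_ne_zero hg)

theorem Gq_fun {y : KK B Λ} (h : ((0 : KK B Λ'), y) ∈ Gq B φ) : y = 0 := by
  obtain ⟨p, q, h0, h1, h2⟩ := h
  simp only [zero_mul] at h1
  have hp : p = 0 := C1.toK_inj (h1.symm.trans toK_zero.symm)
  rw [hp, map_zero, toK_zero] at h2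
  exact (mul_eq_zero.1 h2).resolve_right (toK_ne_zero h0)

theorem Gq_fun' {x : KK B Λ'} {y y' : KK B Λ} (h : (x, y) ∈ Gq B φ) (h' : (x, y') ∈ Gq B φ) :
    y = y' := by
  have := (Gq B φ).sub_mem h h'
  rw [Prod.mk_sub_mk, sub_self] at this
  exact sub_eq_zero.1 (Gq_fun this)

theorem map_trA {c : B → Λ'} (hc : ∀ b, φ (c b) = 0) (f : SS B Λ') :
    map φ (trA c f) = map φ f := by
  have h : ((map φ).comp (trA c : SS B Λ' →ₐ[Λ'] SS B Λ').toRingHom) = (map φ : SS B Λ' →+* SS B Λ) := by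
    apply MvPolynomial.ringHom_ext
    · intro a
      show map φ (trA c (C a)) = map φ (C a)
      rw [trA_C]
    · intro b
      show map φ (trA c (X b)) = map φ (X b)
      rw [trA_X, map_add, map_C, hc, C_0, add_zero]
  exact congrArg (fun g => g f) h

theorem Gq_trK {c : B → Λ'} (hc : ∀ b, φ (c b) = 0) {y1 : KK B Λ'} {y2 : KK B Λ}
    (h : (y1, y2) ∈ Gq B φ) : (trK c y1, y2) ∈ Gq B φ := by
  obtain ⟨p, q, h0, h1, h2⟩ := h
  refine ⟨trA c p, trA c q, ?_, ?_, ?_⟩
  · rw [map_trA hc]; exact h0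
  · show trK c y1 * toK (trA c q) = toK (trA c p)
    have h1' : y1 * toK q = toK p := h1
    rw [← trK_toK, ← trK_toK, ← h1', map_mul]
  · rw [map_trA hc, map_trA hc]; exact h2

variable {Q : QD I E B Λ} {Q' : QD I E B Λ'}

theorem Gq_e (hR : Rel Q Q' φ) (lam : B → ℤ) : (Q'.e lam, Q.e lam) ∈ Gq B φ := by
  have hd : map φ (Q'.den lam) ≠ 0 := by
    rw [hR.map_den]; exact den_ne_zero Q lam
  have := Gq_div (f := Q'.rho lam) hd
  rwa [hR.map_rho, hR.map_den] at this

/-- the graph of the specialisation, on the big algebras -/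
def GA (B : Type*) [Fintype B] [DecidableEq B] (φ : Λ' →+* Λ) :
    AddSubgroup (AA B Λ' × AA B Λ) where
  carrier := {z | ∀ mu, (z.1.coeff mu, z.2.coeff mu) ∈ Gq B φ}
  zero_mem' := fun _ => (Gq B φ).zero_mem
  add_mem' := by
    intro x y hx hy mu
    have := (Gq B φ).add_mem (hx mu) (hy mu)
    rw [Prod.mk_add_mk] at this
    rw [Prod.fst_add, Prod.snd_add, AddMonoidAlgebra.coeff_add, AddMonoidAlgebra.coeff_add,
      Finsupp.add_apply, Finsupp.add_apply]
    exact this
  neg_mem' := by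
    intro x hx mu
    have := (Gq B φ).neg_mem (hx mu)
    rw [Prod.neg_mk] at this
    rw [Prod.fst_neg, Prod.snd_neg, AddMonoidAlgebra.coeff_neg, AddMonoidAlgebra.coeff_neg,
      Finsupp.neg_apply, Finsupp.neg_apply]
    exact this

theorem GA_single (lam : B → ℤ) {y1 : KK B Λ'} {y2 : KK B Λ} (h : (y1, y2) ∈ Gq B φ) :
    ((AddMonoidAlgebra.single lam y1, AddMonoidAlgebra.single lam y2) : AA B Λ' × AA B Λ) ∈
      GA B φ := by
  intro mu
  rw [AddMonoidAlgebra.coeff_single, AddMonoidAlgebra.coeff_single, Finsupp.single_apply,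
    Finsupp.single_apply]
  split_ifs
  · exact h
  · exact (Gq B φ).zero_mem

theorem GA_add {x x' : AA B Λ'} {y y' : AA B Λ} (h : (x, y) ∈ GA B φ) (h' : (x', y') ∈ GA B φ) :
    (x + x', y + y') ∈ GA B φ := by
  rw [← Prod.mk_add_mk]
  exact AddSubgroup.add_mem _ h h'

theorem GA_sub {x x' : AA B Λ'} {y y' : AA B Λ} (h : (x, y) ∈ GA B φ) (h' : (x', y') ∈ GA B φ) :
    (x - x', y - y') ∈ GA B φ := by
  rw [← Prod.mk_sub_mk]
  exact AddSubgroup.sub_mem _ h h'

theorem GA_sum {ι : Type*} (s : Finset ι) {x : ι → AA B Λ'} {y : ι → AA B Λ}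
    (h : ∀ i ∈ s, (x i, y i) ∈ GA B φ) : (∑ i ∈ s, x i, ∑ i ∈ s, y i) ∈ GA B φ := by
  have := (GA B φ).sum_mem (t := s) (f := fun i => (x i, y i)) h
  have e : ∑ i ∈ s, ((x i, y i) : AA B Λ' × AA B Λ) = (∑ i ∈ s, x i, ∑ i ∈ s, y i) := by
    apply Prod.ext
    · rw [Prod.fst_sum]
    · rw [Prod.snd_sum]
  rwa [e] at this

/-- specialisation of a sum of pairs -/
theorem GA_NT (hR : Rel Q Q' φ) {h : Λ'} (hh : φ h = 0) (τ : VV B → SS B Λ') :
    (NT Q' h τ, Q.MT 2 (fun V => map φ (τ V))) ∈ GA B φ := by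
  have e : Q.MT 2 (fun V => map φ (τ V)) = ∑ V : VV B,
      AddMonoidAlgebra.single (lamV (V 0) + lamV (V 1))
        (Q.e (lamV (V 0)) * (toK (map φ (τ V)) * Q.e (lamV (V 1)))) := by
    unfold QD.MT
    refine Finset.sum_congr rfl fun V _ => ?_
    rw [Fin.sum_univ_two, Fin.prod_univ_two]
    congr 1
    ring
  rw [e]
  unfold NT
  refine GA_sum _ fun V _ => GA_single _ ?_
  unfold cc
  have hc : ∀ b, φ (hv h (lamV (V 0)) b) = 0 := by
    intro b
    unfold hv
    rw [map_neg, map_mul, hh, zero_mul, neg_zero]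
  have h1 := (Gq B φ).mul_mem (Gq_toK (φ := φ) (τ V)) (Gq_e hR (lamV (V 1)))
  rw [Prod.mk_mul_mk] at h1
  have h2 := (Gq B φ).mul_mem (Gq_e hR (lamV (V 0))) (Gq_trK hc h1)
  rwa [Prod.mk_mul_mk] at h2

theorem MT_two (F G : Finset (Option B) → SS B Λ) :
    Q.MT 2 (fun V => F (V 0) * G (V 1)) = Q.M F * Q.M G := by
  have := MT_pure Q 2 1 ![F, G]
  simp only [Fin.prod_univ_two, Matrix.cons_val_zero, Matrix.cons_val_one, one_mul,
    H906.cst_one] at this
  exact this

theorem dm_eq (hR : Rel Q Q' φ) : Q'.dm = Q.dm := by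
  funext V i
  unfold QD.dm QD.vo
  rw [hR.vx_eq]

theorem full_eq (hR : Rel Q Q' φ) : full Q' = full Q := by
  unfold H906.full
  rw [dm_eq hR]

theorem nuc_eq (hR : Rel Q Q' φ) (ν : I → ℤ) (a : Option I → ℕ) : nuc Q' ν a = nuc Q ν a := by
  unfold nuc H906.cv
  rw [full_eq hR, hR.vx_eq]

theorem exists_EqvD_lift [Algebra ℚ Λ'] (hR : Rel Q Q' φ) (hφ : Function.Surjective φ)
    {a : Option I → ℕ} {F : Finset (Option B) → SS B Λ} (hF : F ∈ Q.EqvD a) :
    ∃ F' ∈ Q'.EqvD a, ∀ V, map φ (F' V) = F V := by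
  classical
  obtain ⟨F', hF', h1, _, _⟩ := H125.exists_Eqv_lift hR hφ hF.1
  refine ⟨I1.chi Q' a * F', I1.chi_mul_mem Q' a hF', ?_⟩
  intro V
  rw [Pi.mul_apply, map_mul, h1]
  by_cases hV : F V = 0
  · rw [hV, mul_zero]
  · have h2 := hF.2 V hV
    have : I1.chi Q' a V = (1 : SS B Λ') := by
      unfold I1.chi
      rw [if_pos]
      rw [dm_eq hR]; exact h2
    rw [this, map_one, one_mul]

/-- the starting point -/
theorem exists_start [Algebra ℚ Λ] [Algebra ℚ Λ'] (hR : Rel Q Q' φ) (hφ : Function.Surjective φ)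
    {h : Λ'} (hh : φ h = 0) (hQ : Q.NonzeroLoops) (ν : I → ℤ)
    (hν : ∀ U : Finset B, U.Nonempty → ∑ b ∈ U, ν (Q.vx b) ≠ 0) {f : SS B Λ} (hf : f ∈ Q.JC) :
    ∃ τ ∈ DP Q' (Al Q' ν), (NT Q' h τ, QD.cst f) ∈ GA B φ := by
  classical
  obtain ⟨n, F, G, hFG, hsum⟩ := H906.pairs_sum_of_JC Q hQ hf
  have key : ∀ l, ∃ τ ∈ DP Q' (Al Q' ν), (NT Q' h τ, Q.M (F l) * Q.M (G l)) ∈ GA B φ := by
    intro l
    obtain ⟨a, b, ha, hb, hab, hF, hG⟩ := hFG l
    by_cases hF0 : ∃ V, F l V ≠ 0
    · obtain ⟨V, hV⟩ := hF0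
      have hVa := hF.2 V hV
      have hne : nuc Q ν a ≠ 0 := by
        rw [← hVa] at ha ⊢
        rw [nuc_dm]
        obtain ⟨h0, h1⟩ := H906.Nt_ne Q ha
        have hU : (H906.supU V).Nonempty := by
          rw [Finset.nonempty_iff_ne_empty]
          intro hU
          have : lamV V = 0 := by
            funext b
            by_contra hb
            have : b ∈ H906.supU V := Finset.mem_filter.2 ⟨Finset.mem_univ _, hb⟩
            rw [hU] at this
            exact absurd this (Finset.notMem_empty b)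
          rcases H906.lamV_eq_zero this with h | h
          · exact h0 h
          · exact h1 h
        have hνU := hν _ hU
        rcases H906.lamV_cases V with h | h
        · have : ∑ b, ν (Q.vx b) * lamV V b = ∑ b ∈ H906.supU V, ν (Q.vx b) := by
            simp_rw [h]
            rw [← Finset.sum_filter_add_sum_filter_not Finset.univ (fun b => b ∈ H906.supU V)]
            rw [Finset.sum_eq_zero (s := Finset.univ.filter fun b => ¬ b ∈ H906.supU V), add_zero]
            · rw [Finset.filter_mem_eq_inter, Finset.univ_inter]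
              refine Finset.sum_congr rfl fun b hb => ?_
              rw [if_pos hb, mul_one]
            · intro b hb
              rw [if_neg (Finset.mem_filter.1 hb).2, mul_zero]
          rw [this]; exact hνU
        · have : ∑ b, ν (Q.vx b) * lamV V b = -∑ b ∈ H906.supU V, ν (Q.vx b) := by
            simp_rw [h]
            rw [← Finset.sum_filter_add_sum_filter_not Finset.univ (fun b => b ∈ H906.supU V)]
            rw [Finset.sum_eq_zero (s := Finset.univ.filter fun b => ¬ b ∈ H906.supU V), add_zero]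
            · rw [Finset.filter_mem_eq_inter, Finset.univ_inter, ← Finset.sum_neg_distrib]
              refine Finset.sum_congr rfl fun b hb => ?_
              rw [if_pos hb, mul_neg_one]
            · intro b hb
              rw [if_neg (Finset.mem_filter.1 hb).2, mul_zero]
          rw [this]; exact neg_ne_zero.2 hνU
      have hba : nuc Q ν b = - nuc Q ν a := by
        have h1 : ∀ i, cv Q a i + cv Q b i = 0 := by
          intro i
          unfold H906.cv
          have h1 : a none + b none = 1 := by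
            have := congrFun hab none
            rwa [H906.full_none] at this
          have h2 : a (some i) + b (some i) = full Q (some i) := congrFun hab (some i)
          have h3 : (a (some i) : ℤ) + b (some i) = full Q (some i) := by exact_mod_cast h2
          have h4 : (a none : ℤ) + b none = 1 := by exact_mod_cast h1
          have h5 : (b none : ℤ) = 1 - a none := by linarith
          rw [← h3, h5]
          ring
        have h2 : nuc Q ν a + nuc Q ν b = 0 := by
          unfold nuc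
          rw [← Finset.sum_add_distrib]
          refine Finset.sum_eq_zero fun i _ => ?_
          rw [← mul_add, h1, mul_zero]
        linarith
      obtain ⟨F', hF', hF''⟩ := exists_EqvD_lift hR hφ hF
      obtain ⟨G', hG', hG''⟩ := exists_EqvD_lift hR hφ hG
      rcases lt_or_gt_of_ne hne with hlt | hgt
      · refine ⟨fun V => F' (V 0) * G' (V 1), Submodule.subset_span ⟨a, b, ⟨?_, ?_⟩, ?_, F', hF',
          G', hG', rfl⟩, ?_⟩
        · rw [full_eq hR]; exact ha
        · rw [nuc_eq hR]; exact hlt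
        · rw [hab, ← full_eq hR]; rfl
        · have := GA_NT hR hh (fun V : VV B => F' (V 0) * G' (V 1))
          simp only [map_mul, hF'', hG''] at this
          rwa [MT_two] at this
      · refine ⟨fun V => G' (V 0) * F' (V 1), Submodule.subset_span ⟨b, a, ⟨?_, ?_⟩, ?_, G', hG',
          F', hF', rfl⟩, ?_⟩
        · rw [full_eq hR]; exact hb
        · rw [nuc_eq hR, hba]; linarith
        · rw [add_comm, hab, ← full_eq hR]; rfl
        · have := GA_NT hR hh (fun V : VV B => G' (V 0) * F' (V 1))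
          simp only [map_mul, hF'', hG''] at this
          rwa [MT_two, mul_comm] at this
    · push Not at hF0
      have : F l = 0 := funext hF0
      refine ⟨0, zero_mem _, ?_⟩
      have hM : Q.M (0 : Finset (Option B) → SS B Λ) = 0 := (H906.ML Q).map_zero
      rw [this, hM, zero_mul, NT_zero]
      exact (GA B φ).zero_mem
  choose τ hτ hτ' using key
  refine ⟨∑ l, τ l, sum_mem fun l _ => hτ l, ?_⟩
  have hNT : NT Q' h (∑ l, τ l) = ∑ l, NT Q' h (τ l) := by
    let g : (VV B → SS B Λ') →+ AA B Λ' :=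
      { toFun := NT Q' h, map_zero' := NT_zero Q' h, map_add' := NT_add Q' h }
    exact map_sum g τ Finset.univ
  rw [hNT, hsum]
  exact GA_sum _ fun l _ => hτ' l

end

end Vale.Agent.P291.HP
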