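import Vale.Agent.P291.Core2
import Vale.Agent.P291.H125.Gr

/-!
# Specialisation of the flavour parameters: the generators
-/

open MvPolynomial

set_option linter.unusedSectionVars false

namespace Vale.Agent.P291.H125

noncomputable section

variable {I E B Λ Λ' : Type*} [Fintype E] [DecidableEq I] [Fintype B] [DecidableEq B]
  [CommRing Λ] [IsDomain Λ] [CommRing Λ'] [IsDomain Λ']

/-- same quiver data, specialised weights -/
def Rel (Q : QD I E B Λ) (Q' : QD I E B Λ') (φ : Λ' →+* Λ) : Prop :=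
  Q.src = Q'.src ∧ Q.tgt = Q'.tgt ∧ Q.vx = Q'.vx ∧ ∀ a, Q.t a = φ (Q'.t a)

variable {Q : QD I E B Λ} {Q' : QD I E B Λ'} {φ : Λ' →+* Λ}

theorem Rel.vx_eq (h : Rel Q Q' φ) : Q.vx = Q'.vx := h.2.2.1

theorem Rel.W_eq (h : Rel Q Q' φ) : Q.W = Q'.W := by
  ext σ
  show (∀ b, Q.vx (σ b) = Q.vx b) ↔ (∀ b, Q'.vx (σ b) = Q'.vx b)
  rw [h.vx_eq]

theorem Rel.Wt_eq (h : Rel Q Q' φ) : Q.Wt = Q'.Wt := by
  unfold QD.Wt QD.vo
  rw [h.1, h.2.1, h.vx_eq]

theorem Rel.Prs_eq (h : Rel Q Q' φ) : Q.Prs = Q'.Prs := by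
  unfold QD.Prs
  rw [h.vx_eq]

theorem map_xo (φ : Λ' →+* Λ) (o : Option B) : MvPolynomial.map φ (xo Λ' o) = xo Λ o := by
  cases o <;> simp [xo]

theorem Rel.map_xi (h : Rel Q Q' φ) (p : E × B × Option B) :
    MvPolynomial.map φ (Q'.xi p) = Q.xi p := by
  unfold QD.xi
  rw [map_add, map_sub, map_xo, map_X, map_C, h.2.2.2]

theorem Rel.map_rho (h : Rel Q Q' φ) (lam : B → ℤ) :
    MvPolynomial.map φ (Q'.rho lam) = Q.rho lam := by
  unfold QD.rho
  rw [map_prod, h.Wt_eq]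
  exact Finset.prod_congr rfl (fun p _ => by rw [map_pow, h.map_xi])

theorem Rel.map_den (h : Rel Q Q' φ) (lam : B → ℤ) :
    MvPolynomial.map φ (Q'.den lam) = Q.den lam := by
  unfold QD.den
  rw [map_prod, h.Prs_eq]
  exact Finset.prod_congr rfl (fun p _ => by rw [map_pow, map_sub, map_X, map_X])

theorem Rel.map_D (h : Rel Q Q' φ) : MvPolynomial.map φ Q'.D = Q.D := by
  unfold QD.D
  rw [map_prod, h.Prs_eq]
  exact Finset.prod_congr rfl (fun p _ => by rw [map_sub, map_X, map_X])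

theorem X_sub_X_ne_zero {r s : B} (hrs : r ≠ s) : (X r - X s : SS B Λ) ≠ 0 := by
  intro h
  exact hrs (MvPolynomial.X_injective (sub_eq_zero.1 h))

theorem D_ne_zero (Q : QD I E B Λ) : Q.D ≠ 0 := by
  unfold QD.D
  rw [Finset.prod_ne_zero_iff]
  intro p hp
  exact X_sub_X_ne_zero (Finset.mem_filter.1 hp).2

theorem den_ne_zero (Q : QD I E B Λ) (lam : B → ℤ) : Q.den lam ≠ 0 := by
  unfold QD.den
  rw [Finset.prod_ne_zero_iff]
  intro p _
  by_cases hp : p.1 = p.2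
  · simp [hp]
  · exact pow_ne_zero _ (X_sub_X_ne_zero hp)

theorem den_dvd (Q : QD I E B Λ) (lam : B → ℤ) : ∃ n : ℕ, Q.den lam ∣ Q.D ^ n := by
  refine ⟨∑ p ∈ Q.Prs, (lam p.1 - lam p.2).toNat, ?_⟩
  have h1 : Q.den lam = ∏ p ∈ Q.Prs.filter (fun p => p.1 ≠ p.2),
      (X p.1 - X p.2 : SS B Λ) ^ (lam p.1 - lam p.2).toNat := by
    unfold QD.den
    symm
    apply Finset.prod_subset (Finset.filter_subset _ _)
    intro p hp hp'
    have : p.1 = p.2 := by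
      by_contra h
      exact hp' (Finset.mem_filter.2 ⟨hp, h⟩)
    simp [this]
  rw [h1]
  unfold QD.D
  rw [← Finset.prod_pow]
  apply Finset.prod_dvd_prod_of_dvd
  intro p hp
  apply pow_dvd_pow
  exact Finset.single_le_sum (f := fun p : B × B => (lam p.1 - lam p.2).toNat)
    (fun _ _ => Nat.zero_le _) (Finset.mem_filter.1 hp).1

theorem toK_injective : Function.Injective (algebraMap (SS B Λ) (KK B Λ)) :=
  IsFractionRing.injective _ _

theorem toK_ne_zero {f : SS B Λ} (hf : f ≠ 0) : toK f ≠ 0 := by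
  intro h
  exact hf (toK_injective (h.trans (map_zero _).symm))

/-- abbreviation of the graph of the specialisation -/
abbrev Sp (Q' : QD I E B Λ') (φ : Λ' →+* Λ) : Subring (KK B Λ' × KK B Λ) :=
  Gr (KK B Λ') (KK B Λ) (MvPolynomial.map φ) Q'.D

/-- abbreviation of the graph of the specialisation, big algebras -/
abbrev SpA (Q' : QD I E B Λ') (φ : Λ' →+* Λ) : Subring (AA B Λ' × AA B Λ) :=
  GrA (KK B Λ') (KK B Λ) (B → ℤ) (MvPolynomial.map φ) Q'.D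

theorem Rel.e_mem (h : Rel Q Q' φ) (lam : B → ℤ) : (Q'.e lam, Q.e lam) ∈ Sp Q' φ := by
  obtain ⟨n, hn⟩ := den_dvd Q' lam
  have h1 := Gr_algebraMap (K₁ := KK B Λ') (K₂ := KK B Λ) (MvPolynomial.map φ) Q'.D (Q'.rho lam)
  have h2 := Gr_inv (K₁ := KK B Λ') (K₂ := KK B Λ) (sp := MvPolynomial.map φ) hn
    (toK_ne_zero (den_ne_zero Q' lam))
    (by rw [h.map_den]; exact toK_ne_zero (den_ne_zero Q lam))
  have h3 := (Gr (KK B Λ') (KK B Λ) (MvPolynomial.map φ) Q'.D).mul_mem h1 h2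
  rw [h.map_rho, h.map_den] at h3
  exact h3

theorem toK_mem (Q' : QD I E B Λ') (φ : Λ' →+* Λ) (f : SS B Λ') :
    (toK f, toK (MvPolynomial.map φ f)) ∈ Sp Q' φ :=
  Gr_algebraMap (K₁ := KK B Λ') (K₂ := KK B Λ) (MvPolynomial.map φ) Q'.D f

theorem Sp_fun (h : Rel Q Q' φ) {y : KK B Λ} (hy : ((0 : KK B Λ'), y) ∈ Sp Q' φ) : y = 0 :=
  Gr_fun toK_injective (by rw [h.map_D]; exact toK_ne_zero (D_ne_zero Q)) hy

theorem Rel.M_mem (h : Rel Q Q' φ) (F : Finset (Option B) → SS B Λ') :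
    (Q'.M F, Q.M (fun V => MvPolynomial.map φ (F V))) ∈ SpA Q' φ := by
  have h1 : ((∑ V : Finset (Option B),
      (AddMonoidAlgebra.single (lamV V) (toK (F V) * Q'.e (lamV V)),
       AddMonoidAlgebra.single (lamV V) (toK (MvPolynomial.map φ (F V)) * Q.e (lamV V)))) :
        AA B Λ' × AA B Λ) ∈ SpA Q' φ := by
    apply Subring.sum_mem
    intro V _
    exact GrA_single (lamV V) ((Sp Q' φ).mul_mem (toK_mem Q' φ (F V)) (h.e_mem (lamV V)))
  have h2 : ((∑ V : Finset (Option B),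
      (AddMonoidAlgebra.single (lamV V) (toK (F V) * Q'.e (lamV V)),
       AddMonoidAlgebra.single (lamV V) (toK (MvPolynomial.map φ (F V)) * Q.e (lamV V)))) :
        AA B Λ' × AA B Λ) = (Q'.M F, Q.M (fun V => MvPolynomial.map φ (F V))) := by
    apply Prod.ext
    · rw [Prod.fst_sum]; rfl
    · rw [Prod.snd_sum]; rfl
  rw [← h2]; exact h1

theorem cst_mem_SpA (Q' : QD I E B Λ') (φ : Λ' →+* Λ) (f : SS B Λ') :
    (QD.cst f, QD.cst (MvPolynomial.map φ f)) ∈ SpA Q' φ :=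
  GrA_single 0 (toK_mem Q' φ f)

theorem algebraMap_eq_cst (c : Λ) : algebraMap Λ (AA B Λ) c = QD.cst (C c) := by
  unfold QD.cst toK
  rw [← MvPolynomial.algebraMap_eq, ← IsScalarTower.algebraMap_apply, AddMonoidAlgebra.coe_algebraMap]
  rfl

theorem algebraMap_mem_SpA (Q' : QD I E B Λ') (φ : Λ' →+* Λ) (c : Λ') :
    (algebraMap Λ' (AA B Λ') c, algebraMap Λ (AA B Λ) (φ c)) ∈ SpA Q' φ := by
  have h := cst_mem_SpA (B := B) Q' φ (C c)
  rw [map_C] at h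
  rw [algebraMap_eq_cst, algebraMap_eq_cst]; exact h

theorem SpA_fun (h : Rel Q Q' φ) {z : AA B Λ} (hz : ((0 : AA B Λ'), z) ∈ SpA Q' φ) : z = 0 := by
  ext lam
  exact Sp_fun h (mem_GrA.1 hz lam)

theorem SpA_mul {a c : AA B Λ'} {b d : AA B Λ} (h : (a, b) ∈ SpA Q' φ) (h' : (c, d) ∈ SpA Q' φ) :
    (a * c, b * d) ∈ SpA Q' φ := GrA_mul h h'

theorem SpA_add {a c : AA B Λ'} {b d : AA B Λ} (h : (a, b) ∈ SpA Q' φ) (h' : (c, d) ∈ SpA Q' φ) :
    (a + c, b + d) ∈ SpA Q' φ := GrA_add h h'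

theorem SpA_sub {a c : AA B Λ'} {b d : AA B Λ} (h : (a, b) ∈ SpA Q' φ) (h' : (c, d) ∈ SpA Q' φ) :
    (a - c, b - d) ∈ SpA Q' φ := GrA_sub h h'

theorem SpA_zero : ((0 : AA B Λ'), (0 : AA B Λ)) ∈ SpA Q' φ := GrA_zero

theorem SpA_uniq (h : Rel Q Q' φ) {x : AA B Λ'} {z w : AA B Λ} (hz : (x, z) ∈ SpA Q' φ)
    (hw : (x, w) ∈ SpA Q' φ) : z = w := by
  have h3 := SpA_sub hz hw
  rw [sub_self] at h3
  exact sub_eq_zero.1 (SpA_fun h h3)

theorem Rel.Eqv_map (h : Rel Q Q' φ) {F : Finset (Option B) → SS B Λ'} (hF : F ∈ Q'.Eqv) :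
    (fun V => MvPolynomial.map φ (F V)) ∈ Q.Eqv := by
  intro σ hσ V
  have := hF σ (by rw [← h.W_eq]; exact hσ) V
  show MvPolynomial.map φ (F (vact σ V)) = rename σ (MvPolynomial.map φ (F V))
  rw [this, MvPolynomial.map_rename]

end

end Vale.Agent.P291.H125
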